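import Vale.Agent.P054.T3.H533.SepT
import Mathlib.Geometry.Euclidean.PerpBisector
import Mathlib.LinearAlgebra.AffineSpace.FiniteDimensional

set_option autoImplicit false
set_option linter.all false

/-!
# P054 / T3: centres in `P` which determine the points of `P`, and the number of their distances
-/

namespace Vale.Agent.P054.T3.H900

open Finset Module
open Vale.Agent.P054.T2.H686 (E dists coe_dists)
open Vale.Agent.P054.T3.H533 (dn Det)

variable {n : ℕ}

/-- `n + 2` points of `P` whose distances determine the points of `P` -/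
theorem exists_det (P : Finset (E n)) (hP : P.Nonempty) :
    ∃ a : Fin (n + 2) → E n, (∀ i, a i ∈ P) ∧ Det a P := by
  classical
  obtain ⟨t, h1, h2, h3⟩ := exists_affineIndependent ℝ (E n) (P : Set (E n))
  have hfin : t.Finite := P.finite_toSet.subset h1
  haveI : Fintype t := hfin.fintype
  have hcard : Fintype.card t ≤ n + 2 := by
    have h4 : Fintype.card t ≤ finrank ℝ (vectorSpan ℝ (Set.range ((↑) : t → E n))) + 1 := by
      convert h3.card_le_finrank_succ
    have h5 : finrank ℝ (vectorSpan ℝ (Set.range ((↑) : t → E n))) ≤ finrank ℝ (E n) :=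
      Submodule.finrank_le _
    rw [finrank_euclideanSpace, Fintype.card_fin] at h5
    omega
  obtain ⟨p₀, hp₀⟩ := hP
  have hne : Nonempty t := by
    by_contra hc
    have hc : t = ∅ := by
      ext y
      simp only [Set.mem_empty_iff_false, iff_false]
      exact fun hy => hc ⟨⟨y, hy⟩⟩
    have h4 : p₀ ∈ affineSpan ℝ (P : Set (E n)) := subset_affineSpan ℝ _ (mem_coe.2 hp₀)
    rw [← h2, hc, AffineSubspace.span_empty] at h4
    exact AffineSubspace.notMem_bot ℝ (E n) p₀ h4
  obtain ⟨e⟩ : Nonempty (t ↪ Fin (n + 2)) :=
    Function.Embedding.nonempty_of_card_le (by rwa [Fintype.card_fin])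
  let g : Fin (n + 2) → t := Function.invFun e
  have hg : Function.Surjective g := Function.invFun_surjective e.injective
  refine ⟨fun i => (g i : E n), fun i => mem_coe.1 (h1 (g i).2), ?_⟩
  intro x hx x' hx' hd
  have h5 : t ⊆ (AffineSubspace.perpBisector x x' : Set (E n)) := by
    intro y hy
    obtain ⟨i, hi⟩ := hg ⟨y, hy⟩
    have h6 : dist x (g i : E n) = dist x' (g i : E n) := hd i
    rw [hi] at h6
    rw [SetLike.mem_coe, AffineSubspace.mem_perpBisector_iff_dist_eq, dist_comm, h6, dist_comm]
  have h6 : affineSpan ℝ (P : Set (E n)) ≤ AffineSubspace.perpBisector x x' := by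
    rw [← h2]
    exact affineSpan_le.2 h5
  have h7 := h6 (subset_affineSpan ℝ _ (mem_coe.2 hx))
  rw [AffineSubspace.mem_perpBisector_iff_dist_eq, dist_self] at h7
  exact dist_eq_zero.1 h7.symm

/-- every centre of `P` sees at most `t + 1` distances -/
theorem dn_le {m : ℕ} {P : Finset (E n)} (a : Fin m → E n) (ha : ∀ i, a i ∈ P) {t : ℕ}
    (ht : (dists P).card ≤ t) : dn a P ≤ m * (t + 1) := by
  classical
  unfold dn
  calc ∑ i, (P.image fun x => dist x (a i)).card ≤ ∑ _i : Fin m, (t + 1) := by
        refine Finset.sum_le_sum fun i _ => ?_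
        refine le_trans (Finset.card_le_card (t := insert 0 (dists P)) ?_) ?_
        · intro r hr
          obtain ⟨x, hx, rfl⟩ := mem_image.1 hr
          rw [mem_insert]
          by_cases h : x = a i
          · left; rw [h, dist_self]
          · right
            have : dist x (a i) ∈ (dists P : Set ℝ) := by
              rw [coe_dists]
              exact ⟨x, hx, a i, ha i, h, rfl⟩
            exact this
        · exact (card_insert_le _ _).trans (by omega)
    _ = m * (t + 1) := by rw [Finset.sum_const, Finset.card_univ, Fintype.card_fin, smul_eq_mul]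

end Vale.Agent.P054.T3.H900
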