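import Vale.Agent.P054.T3.H900.Sel2
import Vale.Agent.P054.T3.H955.Fin2
import Vale.Agent.P054.T3.H854.Top

set_option autoImplicit false

/-!
# P054 / T3: dimension three
-/

namespace Vale.Agent.P054.T3.H900

open Vale.Agent.P054.T3.H854 (StepL LBd Txt g txt_three lbd_three)

/-- the step in dimension `3` -/
theorem stepL2 : StepL 2 := Vale.Agent.P054.T3.H955.stepL_two_of_sel sel2

/-- the lossless bound in dimension `3` -/
theorem lbd3 : LBd 3 := lbd_three stepL2

/-- the text in dimension `3` -/
theorem txt3 : Txt g 3 := txt_three stepL2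

end Vale.Agent.P054.T3.H900
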