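import Vale.Agent.P054.T3.H900.Trace
import Vale.Agent.P054.T3.H109.GLines

set_option autoImplicit false
set_option linter.all false

/-!
# P054 / T3, d = 3: two traces of one orientation share at most a line; points on a line
-/

namespace Vale.Agent.P054.T3.H900

open Finset Module
open Vale.Agent.P054.T2.H686 (E)
open Vale.Agent.P054.T3.H109.Gen (onL lineC lineC_eq)
open Vale.Agent.P054.T3.H190
open Vale.Agent.P054.T3.H637 (dt fixS mem_fixS dt_mul dt_one dt_of_fix)

variable {n : ℕ}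

/-- in dimension `3`, two isometries of one determinant which agree at two independent vectors
are equal: the common fixed space is at most a line -/
theorem finrank_fix_le {φ : E 2 ≃ₗᵢ[ℝ] E 2} (h : dt φ = 1) (hne : φ ≠ 1) :
    finrank ℝ (fixS φ) ≤ 1 := by
  have h1 := dt_of_fix φ
  rw [h] at h1
  have h2 : finrank ℝ (E 2) = 3 := by rw [finrank_euclideanSpace, Fintype.card_fin]
  have h3 : finrank ℝ (fixS φ) ≤ 3 := by
    rw [← h2]
    exact Submodule.finrank_le _
  rw [h2] at h1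
  have h4 : finrank ℝ (fixS φ) ≠ 3 := by
    intro h4
    apply hne
    have h5 : fixS φ = ⊤ := Submodule.eq_top_of_finrank_eq (by rw [h4, h2])
    ext1 x
    have h6 : x ∈ fixS φ := by rw [h5]; exact Submodule.mem_top
    exact mem_fixS.1 h6
  have h5 : finrank ℝ (fixS φ) ≠ 2 := by
    intro h5
    rw [h5] at h1
    norm_num at h1
  omega

theorem dt_ne_zero (φ : E 2 ≃ₗᵢ[ℝ] E 2) : dt φ ≠ 0 := by
  intro h
  have h1 := dt_mul φ φ⁻¹
  rw [mul_inv_cancel, dt_one, h, zero_mul] at h1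
  exact one_ne_zero h1

/-- two different traces of one orientation through `s` meet in a line through `s` -/
theorem share {S : Finset (E 2 × E 2)} {ε : ℝ} {A B : Finset (E 2 × E 2)}
    (hA : IsTr S ε A) (hB : IsTr S ε B) (hne : A ≠ B) {s r z : E 2 × E 2}
    (hsA : s ∈ A) (hsB : s ∈ B) (hrA : r ∈ A) (hrB : r ∈ B) (hrs : r ≠ s)
    (hzA : z ∈ A) (hzB : z ∈ B) : onL s r z := by
  have hAS := hA.subset
  have hBS := hB.subset
  obtain ⟨Φ, h1, h2, h3⟩ := hA.sub
  obtain ⟨Ψ, k1, k2, k3⟩ := hB.sub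
  set φ : E 2 ≃ₗᵢ[ℝ] E 2 := Ψ⁻¹ * Φ with hφ
  have hd : dt φ = 1 := by
    have e1 : dt Ψ * dt φ = dt Φ := by rw [← dt_mul, hφ, mul_inv_cancel_left]
    rw [h1, k1] at e1
    have e2 : ε ≠ 0 := by rw [← k1]; exact dt_ne_zero Ψ
    exact mul_left_cancel₀ e2 (by rw [e1, mul_one])
  have hφ1 : φ ≠ 1 := by
    intro h
    apply hne
    have e1 : Φ = Ψ := by
      have := congrArg (fun x => Ψ * x) h
      simpa [hφ] using this
    ext x
    constructor
    · intro hx
      refine k3 s hsB x (hAS hx) ?_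
      rw [← e1]
      exact h2 x hx s hsA
    · intro hx
      refine h3 s hsA x (hBS hx) ?_
      rw [e1]
      exact k2 x hx s hsB
  have hf := finrank_fix_le hd hφ1
  have hmem : ∀ x, x ∈ A → x ∈ B → x.2 - s.2 ∈ fixS φ := by
    intro x hxA hxB
    rw [mem_fixS]
    have e1 : Φ (x.2 - s.2) = Ψ (x.2 - s.2) := by rw [← h2 x hxA s hsA, k2 x hxB s hsB]
    show Ψ⁻¹ (Φ (x.2 - s.2)) = x.2 - s.2
    rw [e1]
    exact Ψ.symm_apply_apply _
  have hr := hmem r hrA hrB
  have hz := hmem z hzA hzB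
  have hr0 : r.2 - s.2 ≠ 0 := by
    intro h
    have h5 := h2 r hrA s hsA
    rw [h, map_zero] at h5
    exact hrs (Prod.ext (sub_eq_zero.1 h5) (sub_eq_zero.1 h))
  -- a subspace of dimension at most one
  obtain ⟨a, ha⟩ : ∃ a : ℝ, z.2 - s.2 = a • (r.2 - s.2) := by
    have e1 : (ℝ ∙ (r.2 - s.2)) = fixS φ := by
      refine Submodule.eq_of_le_of_finrank_le ?_ ?_
      · rw [Submodule.span_singleton_le_iff_mem]
        exact hr
      · rw [finrank_span_singleton hr0]
        exact hf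
    rw [← e1] at hz
    obtain ⟨a, ha⟩ := Submodule.mem_span_singleton.1 hz
    exact ⟨a, ha.symm⟩
  refine ⟨a, ?_⟩
  have e2 := h2 z hzA s hsA
  rw [ha, map_smul, ← h2 r hrA s hsA] at e2
  refine Prod.ext ?_ ?_
  · show z.1 = s.1 + a • (r.1 - s.1)
    rw [← e2]; abel
  · show z.2 = s.2 + a • (r.2 - s.2)
    rw [← ha]; abel

/-- points of `S ⊆ X × Y` on a line with different first coordinates -/
theorem lineC_prod_le (X Y : Finset (E n)) {S : Finset (E n × E n)} (hS : S ⊆ X ×ˢ Y)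
    {s r : E n × E n} (h : s.1 ≠ r.1) : lineC S s r ≤ lineC X s.1 r.1 := by
  classical
  rw [lineC_eq, lineC_eq]
  refine Finset.card_le_card_of_injOn Prod.fst ?_ ?_
  · intro z hz
    obtain ⟨h1, a, h2⟩ := mem_filter.1 (mem_coe.1 hz)
    refine mem_coe.2 (mem_filter.2 ⟨(mem_product.1 (hS h1)).1, a, ?_⟩)
    rw [h2]
    rfl
  · intro z hz z' hz' he
    obtain ⟨h1, a, h2⟩ := mem_filter.1 (mem_coe.1 hz)
    obtain ⟨h1', a', h2'⟩ := mem_filter.1 (mem_coe.1 hz')
    have e1 : s.1 + a • (r.1 - s.1) = s.1 + a' • (r.1 - s.1) := by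
      have e2 : z.1 = z'.1 := he
      rw [h2, h2'] at e2
      exact e2
    have e3 : (a - a') • (r.1 - s.1) = 0 := by
      rw [sub_smul, sub_eq_zero]
      exact add_left_cancel e1
    rcases smul_eq_zero.1 e3 with e4 | e4
    · rw [h2, h2', sub_eq_zero.1 e4]
    · exact absurd (sub_eq_zero.1 e4).symm h

end Vale.Agent.P054.T3.H900
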