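import Vale.Agent.P054.T3.H900.SelB
import Vale.Agent.P054.T3.H226.Start2
import Vale.Agent.P054.T3.H955.Step2

set_option autoImplicit false
set_option linter.all false

/-!
# P054 / T3, d = 3: the selection `Sel2Stmt`
-/

namespace Vale.Agent.P054.T3.H900

open Finset Module
open Vale.Agent.P054.T2 Vale.Agent.P054.T2.SecC
open Vale.Agent.P054.T2.H686 (E zt zt_injective Ez Gm dists)
open Vale.Agent.P054.T2.H455 (Sep)
open Vale.Agent.P054.T3.H190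
open Vale.Agent.P054.T3.H637 (dt)
open Vale.Agent.P054.T3.H533 (MuK NoRichL uz uz_zt dn Det)
open Vale.Agent.P054.T3.H955 (Sel2Stmt)

/-- the constants -/
theorem exists_Q {c' : ℝ} (hc : 0 < c') (A₁ A₂ Y₀ : ℝ) : ∃ Q : ℝ, 1 ≤ Q ∧ 1 ≤ c' * Q ∧
    A₁ ≤ c' * Q ∧ A₂ ≤ c' * Q ∧ Y₀ ≤ c' * Q := by
  refine ⟨max 1 (max (max 1 A₁) (max A₂ Y₀) / c'), le_max_left _ _, ?_⟩
  have h : max (max 1 A₁) (max A₂ Y₀) ≤ c' * max 1 (max (max 1 A₁) (max A₂ Y₀) / c') := by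
    have h1 : max (max 1 A₁) (max A₂ Y₀) / c' ≤ max 1 (max (max 1 A₁) (max A₂ Y₀) / c') :=
      le_max_right _ _
    rw [div_le_iff₀ hc] at h1
    linarith
  refine ⟨le_trans ?_ h, le_trans ?_ h, le_trans ?_ h, le_trans ?_ h⟩
  · exact (le_max_left _ _).trans (le_max_left _ _)
  · exact (le_max_right _ _).trans (le_max_left _ _)
  · exact (le_max_left _ _).trans (le_max_right _ _)
  · exact (le_max_right _ _).trans (le_max_right _ _)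

/-- **the selection for `n = 2`** -/
theorem sel2 : Sel2Stmt := by
  classical
  obtain ⟨C, hC, ε₀, hε₀, hst⟩ := H226.exists_start2
  obtain ⟨ε₁, hε1, hε2, hε3⟩ : ∃ ε₁ : ℝ, 0 < ε₁ ∧ ε₁ ≤ ε₀ ∧ ε₁ ≤ 1 / 8 :=
    ⟨min ε₀ (1 / 8), lt_min hε₀ (by norm_num), min_le_left _ _, min_le_right _ _⟩
  obtain ⟨t₁, hst⟩ := hst ε₁ hε1 hε2
  obtain ⟨K1, Cr, hCr, hB⟩ := stepB (ε₁ / 144) (by positivity)
  obtain ⟨q, hq⟩ := pow_unbounded_of_one_lt (8 * 1990656 * C ^ 2) (one_lt_two (α := ℝ))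
  obtain ⟨κ₀, hκ⟩ : ∃ κ₀ : ℕ, κ₀ = ⌊C * 8 ^ (4 * q)⌋₊ := ⟨_, rfl⟩
  obtain ⟨c₀, hc₀⟩ : ∃ c₀ : ℕ, c₀ = 16 * 1990656 * κ₀ := ⟨_, rfl⟩
  have hκ1 : 1 ≤ κ₀ := by
    have h8 : (1 : ℝ) ≤ C * 8 ^ (4 * q) := by
      have : (1 : ℝ) ≤ 8 ^ (4 * q) := one_le_pow₀ (by norm_num)
      exact one_le_mul_of_one_le_of_one_le hC this
    rw [hκ]; exact Nat.le_floor (by exact_mod_cast h8)
  have hc₀1 : 1 ≤ c₀ := by omega
  obtain ⟨A₀, hA1, hA2⟩ : ∃ A₀ : ℝ, 64 * 1990656 * (κ₀ : ℝ) ≤ A₀ ∧ 4 + (K1 : ℝ) ≤ A₀ :=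
    ⟨max (64 * 1990656 * (κ₀ : ℝ)) (4 + (K1 : ℝ)), le_max_left _ _, le_max_right _ _⟩
  have hA0 : 0 ≤ A₀ := le_trans (by positivity) hA2
  obtain ⟨c', hc', hc8⟩ : ∃ c' : ℝ, 0 < c' ∧ 8 * c' ^ 2 * C = 1 := by
    have hC0 : 0 < C := by linarith
    refine ⟨√(1 / (8 * C)), by positivity, ?_⟩
    rw [Real.sq_sqrt (by positivity)]
    field_simp
  obtain ⟨C', hC1, hC2, hC3⟩ : ∃ C' : ℝ, 1 ≤ C' ∧ C ≤ C' ∧ 16 ≤ C' :=
    ⟨max C 16, hC.trans (le_max_left _ _), le_max_left _ _, le_max_right _ _⟩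
  obtain ⟨Co, hCo1, hCo2, hCo3⟩ : ∃ Co : ℝ, 1 ≤ Co ∧ 8 * (c₀ : ℝ) ≤ Co ∧ 2 * C ≤ Co :=
    ⟨max (8 * (c₀ : ℝ)) (2 * C), le_trans (by linarith) (le_max_right _ _), le_max_left _ _,
      le_max_right _ _⟩
  refine ⟨Co, hCo1, fun Y₀ => ?_⟩
  obtain ⟨Q, hQ1, hQ2, hQ3, hQ4, hQ5⟩ := exists_Q hc' (2 * A₀ + 4) (8 * C' ^ 3) Y₀
  refine ⟨Q ^ 3, fun K hK hK1 => ?_⟩
  obtain ⟨t₂, ht₂⟩ := exists_t (δ := ε₁ / 20) (by positivity) (2 ^ (4 * q))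
  obtain ⟨t₃, ht₃⟩ := exists_t (δ := 7 / 64) (by norm_num) (4 * C)
  obtain ⟨t₄, ht₄⟩ := exists_t (δ := 1 / 4) (by norm_num) (2 * K)
  obtain ⟨t₅, ht₅⟩ := exists_t (δ := ε₁ / 48) (by positivity)
    (4 * Cr * (4 * K ^ 2) ^ (ε₁ / 144) / c')
  refine ⟨max t₁ (max (max t₂ t₃) (max t₄ t₅)), fun t ht ht1 P hd hp1 hp2 B hG => ?_⟩
  have hb1 := (le_max_left _ _).trans ht
  have hb := (le_max_right _ _).trans ht
  have ht₂ := ht₂ t (((le_max_left _ _).trans (le_max_left _ _)).trans hb)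
  have ht₃ := ht₃ t (((le_max_right _ _).trans (le_max_left _ _)).trans hb)
  have ht₄ := ht₄ t (((le_max_left _ _).trans (le_max_right _ _)).trans hb)
  have ht₅ := ht₅ t (((le_max_right _ _).trans (le_max_right _ _)).trans hb)
  clear hb ht
  have e32 : (((2 + 1 : ℕ) : ℝ) / 2) = 3 / 2 := by norm_num
  rw [e32] at hp1 hp2
  obtain ⟨a, X, Y, z, ha, hdet, hX, hY, hXn, hYn, hdn, hXY, hz1, hz2, hWp, s1, s2, s3, hcell⟩ :=
    hst t hb1 ht1 P hd K hK1 hp1 hp2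
  have hadj : (adjE : E 2 × E 2 → E 2 × E 2 → Prop) = adj := rfl
  rw [hadj] at hWp s1 s2 s3
  have ht1' : (1 : ℝ) ≤ t := by exact_mod_cast ht1
  have ht0 : (0 : ℝ) < t := by linarith
  have hz0 : 0 < z := lt_of_lt_of_le (Real.rpow_pos_of_pos ht0 _) hz1
  obtain ⟨k, u, hk1, hu1, ek3, ek4, ek6, eu9, eu2, eu3, eu24⟩ := exists_ku hK1 hz0 hz2
  obtain ⟨N, hN⟩ : ∃ N : ℝ, N = (X.card : ℝ) * Y.card := ⟨_, rfl⟩
  obtain ⟨w, hw⟩ : ∃ w : ℝ, w = (W adj (X ×ˢ Y) : ℝ) := ⟨_, rfl⟩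
  obtain ⟨x, hx⟩ : ∃ x : ℝ, N ^ 2 / w = x := ⟨_, rfl⟩
  rw [← hN] at hXY s1 s2 s3
  rw [← hw, hx] at s1 s2 s3
  have hN0 : 0 < N := by
    have h1 : (0 : ℝ) < X.card := by exact_mod_cast hXn.card_pos
    have h2 : (0 : ℝ) < Y.card := by exact_mod_cast hYn.card_pos
    rw [hN]; positivity
  have hw0 : 0 < w := by rw [hw]; exact_mod_cast hWp
  have hNw : x * w = N ^ 2 := by rw [← hx]; exact div_mul_cancel₀ _ hw0.ne'
  have hx1 : 1 ≤ x := by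
    rw [← hx, le_div_iff₀ hw0, one_mul, hw, hN]
    have h1 := W_le_sq adj (X ×ˢ Y)
    rw [card_product] at h1
    exact_mod_cast h1
  have hCp : 0 < C := by linarith
  -- the inequalities of `nums_core`
  have n1 : 8 * c' ^ 2 * k ^ 6 * u ^ 3 * x ^ 3 ≤ N := by
    have h1 : 8 * c' ^ 2 * (K ^ 2 * z ^ (-(1 / 8) : ℝ) * x ^ 3) ≤ 8 * c' ^ 2 * (C * N) :=
      mul_le_mul_of_nonneg_left s2 (by positivity)
    rw [ek6, eu3]
    calc _ = 8 * c' ^ 2 * (K ^ 2 * z ^ (-(1 / 8) : ℝ) * x ^ 3) := by ring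
      _ ≤ 8 * c' ^ 2 * (C * N) := h1
      _ = (8 * c' ^ 2 * C) * N := by ring
      _ = N := by rw [hc8, one_mul]
  have n2 : 8 * c' ^ 2 * k ^ 4 * u ^ 2 * (x ^ 2 * ((dn a X + dn a Y : ℕ) : ℝ)) ≤ N := by
    have h1 := mul_le_mul_of_nonneg_left s3 (show 0 ≤ 8 * c' ^ 2 by positivity)
    rw [ek4, eu2]
    calc _ = 8 * c' ^ 2 * (K ^ (4 / 3 : ℝ) * z ^ (-(1 / 12) : ℝ) * x ^ 2 *
          ((dn a X + dn a Y : ℕ) : ℝ)) := by ring
      _ ≤ 8 * c' ^ 2 * (C * N) := h1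
      _ = (8 * c' ^ 2 * C) * N := by ring
      _ = N := by rw [hc8, one_mul]
  have n3 : x * u ^ 9 ≤ C' * t := by
    calc x * u ^ 9 ≤ (C * (z ^ (3 / 8 : ℝ) * t)) * u ^ 9 :=
          mul_le_mul_of_nonneg_right s1 (by positivity)
      _ = C * t * (z ^ (3 / 8 : ℝ) * u ^ 9) := by ring
      _ = C * t := by rw [eu9, mul_one]
      _ ≤ C' * t := mul_le_mul_of_nonneg_right hC2 ht0.le
  have n4 : ((dn a X + dn a Y : ℕ) : ℝ) ≤ C' * t := by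
    have h1 : ((dn a X + dn a Y : ℕ) : ℝ) ≤ 16 * t := by exact_mod_cast hdn
    exact h1.trans (mul_le_mul_of_nonneg_right hC3 ht0.le)
  have n5 : k ^ 6 * (t : ℝ) ^ 3 ≤ N * u ^ 24 := by
    have h1 : N * u ^ 24 = (P.card : ℝ) ^ 2 := by
      calc N * u ^ 24 = (z * u ^ 24) * (P.card : ℝ) ^ 2 := by rw [hXY]; ring
        _ = _ := by rw [eu24, one_mul]
    have h2 : (K * (t : ℝ) ^ (3 / 2 : ℝ)) ^ 2 ≤ (P.card : ℝ) ^ 2 :=
      pow_le_pow_left₀ (by positivity) hp1 2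
    have h3 : ((t : ℝ) ^ (3 / 2 : ℝ)) ^ 2 = (t : ℝ) ^ 3 := by
      rw [← Real.rpow_natCast, ← Real.rpow_mul ht0.le, ← Real.rpow_natCast]; norm_num
    rw [mul_pow, h3] at h2
    rw [h1, ek6]
    exact h2
  have hkQ : Q ≤ k := by
    by_contra hc
    have h1 : k ^ 3 < Q ^ 3 := pow_lt_pow_left₀ (not_le.1 hc) (by linarith) (by norm_num)
    rw [ek3] at h1
    linarith
  have hkQ2 : c' * Q ≤ c' * k ^ 2 := by
    refine mul_le_mul_of_nonneg_left (hkQ.trans ?_) hc'.le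
    calc k = k * 1 := (mul_one k).symm
      _ ≤ k * k := mul_le_mul_of_nonneg_left hk1 (by linarith)
      _ = k ^ 2 := by ring
  have n6 : 1 ≤ c' * k ^ 2 := hQ2.trans hkQ2
  have n7 : 8 * C' ^ 3 ≤ c' ^ 30 * k ^ 66 := by
    have h1 : (c' * k ^ 2) ^ 1 ≤ (c' * k ^ 2) ^ 30 := pow_le_pow_right₀ n6 (by norm_num)
    have h2 : (1 : ℝ) ≤ k ^ 6 := one_le_pow₀ hk1
    calc 8 * C' ^ 3 ≤ c' * k ^ 2 := hQ4.trans hkQ2
      _ = (c' * k ^ 2) ^ 1 := (pow_one _).symm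
      _ ≤ (c' * k ^ 2) ^ 30 := h1
      _ = (c' * k ^ 2) ^ 30 * 1 := (mul_one _).symm
      _ ≤ (c' * k ^ 2) ^ 30 * k ^ 6 := mul_le_mul_of_nonneg_left h2 (by positivity)
      _ = _ := by ring
  obtain ⟨Yr, hYr⟩ : ∃ Yr : ℝ, Yr = c' * k ^ 2 * u := ⟨_, rfl⟩
  obtain ⟨τ, T, M, m1, m2, m3, m4, m5, m6, m7, m8, m9, m10, m11, m12⟩ :=
    nums_core (T₀ := dn a X + dn a Y) hc' hC1 hA0 hk1 hu1 hx1 hN0 ht1' n1 n2 n3 n4 n5 n6
      (hQ3.trans hkQ2) n7 hYr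
  have hYrp : 0 < Yr := by rw [hYr]; positivity
  have hτ0 : (0 : ℝ) < τ := by exact_mod_cast m1
  -- the selection
  have key : ∃ (E0 : Finset ((E 2 × E 2) × (E 2 × E 2))) (Ms : E 2 × E 2 → ℕ),
      E0 ⊆ E1 adj (X ×ˢ Y) ∧ (W adj (X ×ˢ Y) : ℝ) / 2 ≤ E0.card ∧
      (∀ e ∈ E0, OrL E0 Ms (dt B) e) ∧ ∀ U ⊆ X ×ˢ Y, ∑ s ∈ U, (Ms s : ℝ) ≤
        U.card * M + Co * √(U.card * (N ^ 2 / τ)) := by
    by_cases hreg : (t : ℝ) ^ (-(ε₁ / 2)) ≤ z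
    · obtain ⟨cl, h1, h2⟩ := hcell hreg (4 * q) ht₂
      have himg : ∀ (i₁ i₂ : DecidableEq
          (Option (Fin (3 * (4 * q)) → Bool) × Option (Fin (3 * (4 * q)) → Bool)))
          (A : Finset (E 2 × E 2)), @Finset.image _ _ i₁ cl A = @Finset.image _ _ i₂ cl A := by
        intro i₁ i₂ A
        have e : i₁ = i₂ := Subsingleton.elim _ _
        rw [e]
      have hfil : ∀ (c : Option (Fin (3 * (4 * q)) → Bool) × Option (Fin (3 * (4 * q)) → Bool))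
          (i₁ i₂ : DecidablePred fun s => cl s = c),
          @Finset.filter _ (fun s => cl s = c) i₁ (X ×ˢ Y) =
            @Finset.filter _ (fun s => cl s = c) i₂ (X ×ˢ Y) := by
        intro c i₁ i₂
        have e : i₁ = i₂ := Subsingleton.elim _ _
        rw [e]
      obtain ⟨E0, Ms, h3, h4, h5, h6⟩ := stepA (M := M) hC hq.le a (0 : Fin 4) cl
        (fun A hA hA' => by
          refine le_trans (le_of_eq ?_) (h1 A hA hA')
          exact congrArg (fun F => ((Finset.card F : ℕ) : ℝ)) (himg _ _ A)) (by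
          rw [hadj] at h2
          refine le_trans (le_of_eq ?_) h2
          refine Finset.sum_congr (himg _ _ _) fun c _ => ?_
          exact congrArg (fun F => ((W adj F : ℕ) : ℝ)) (hfil c _ _)) hκ hc₀ (by
          refine le_trans ?_ m10
          exact mul_le_mul_of_nonneg_right hA1 (by positivity)) (dt B)
      refine ⟨E0, Ms, h3, h4, h5, fun U hU => ?_⟩
      refine (msum c₀ M hc₀1 h6 hτ0 (N := N) ?_ U hU).trans ?_
      · rw [← hw, ← hNw]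
        calc w * τ ≤ w * (2 * x) := mul_le_mul_of_nonneg_left m3 hw0.le
          _ = _ := by ring
      · have h7 : 0 ≤ √((U.card : ℝ) * (N ^ 2 / τ)) := Real.sqrt_nonneg _
        have h8 := mul_le_mul_of_nonneg_right hCo2 h7
        linarith
    · have hreg' := not_le.1 hreg
      have h1 := num_bd' (k := k) (u := u) hCr hc' hε1 hK1 hk1 ht1' hz0 hz2 hN0 hXY
        (Nat.cast_nonneg _) hp2 hreg' eu2 ht₅
      have h2 := num_bd (M := (M : ℝ)) (W := w) hCr hN0 hτ0 hYrp (Nat.cast_nonneg _) hw0 hx m2 h1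
        m12 m11
      obtain ⟨E0, h3, h4, h5⟩ := hB X Y 4 a (0 : Fin 4) M (dt B) hYn (by
        have h6 : ((4 * (dn a X + dn a Y) + K1 : ℕ) : ℝ) ≤ M := by
          refine le_trans ?_ m10
          have h7 : (4 + (K1 : ℝ)) * (((dn a X + dn a Y : ℕ) : ℝ) + 1) ≤
              A₀ * (((dn a X + dn a Y : ℕ) : ℝ) + 1) :=
            mul_le_mul_of_nonneg_right hA2 (by positivity)
          refine le_trans ?_ h7
          have h8 : (0 : ℝ) ≤ (K1 : ℝ) * ((dn a X + dn a Y : ℕ) : ℝ) := by positivity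
          push_cast at h8 ⊢
          linarith
        exact_mod_cast h6) (by rw [← hN, ← hw]; exact h2)
      refine ⟨E0, fun _ => M, h3, h4, h5, fun U hU => ?_⟩
      rw [sum_const, nsmul_eq_mul]
      have h7 : 0 ≤ √((U.card : ℝ) * (N ^ 2 / τ)) := Real.sqrt_nonneg _
      have h8 : 0 ≤ Co * √((U.card : ℝ) * (N ^ 2 / τ)) := mul_nonneg (by linarith) h7
      linarith
  obtain ⟨E0, Ms, k1, k2, k3, k4⟩ := key
  obtain ⟨S, E', g1, g2, g3, g4, g5, g6, g7, g8, g9⟩ := glue hG hX hY hdet k1 Ms k3 m5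
  have hSN : (S.card : ℝ) = N := by rw [g8, hN]; push_cast; ring
  have hEw : w / 2 ≤ E'.card := by rw [g7, hw]; exact k2
  refine ⟨S, E', P.card, T, τ, M, fun z => Ms (uz B z), Yr, ?_, g1, g2, g3, ?_, m1, m4, ?_, g4, g5,
    g6, ?_, ?_, ?_, ?_, ?_, ?_, ?_⟩
  · rw [← card_pos]
    have : (0 : ℝ) < E'.card := lt_of_lt_of_le (by linarith) hEw
    exact_mod_cast this
  · have h1 : (S.card : ℝ) ^ 2 ≤ 4 * τ * E'.card := by
      rw [hSN, ← hNw]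
      calc x * w ≤ τ * w := mul_le_mul_of_nonneg_right m2 hw0.le
        _ ≤ τ * (2 * E'.card) := mul_le_mul_of_nonneg_left (by linarith) hτ0.le
        _ ≤ 4 * τ * E'.card := by
            have : (0 : ℝ) ≤ τ * E'.card := by positivity
            linarith
    exact_mod_cast h1
  · have h1 : x ≤ C * t := by
      refine s1.trans (mul_le_mul_of_nonneg_left ?_ hCp.le)
      have : z ^ (3 / 8 : ℝ) ≤ 1 := Real.rpow_le_one hz0.le hz2 (by norm_num)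
      calc z ^ (3 / 8 : ℝ) * t ≤ 1 * t := mul_le_mul_of_nonneg_right this ht0.le
        _ = t := one_mul _
    calc (τ : ℝ) ≤ 2 * x := m3
      _ ≤ 2 * C * t := by linarith
      _ ≤ Co * t := mul_le_mul_of_nonneg_right hCo3 ht0.le
  · intro U hU
    obtain ⟨U', hU', h1, h2⟩ := g9 U hU
    push_cast
    rw [h1, h2, hSN]
    exact k4 U' hU'
  · calc Y₀ ≤ c' * Q := hQ5
      _ ≤ c' * k ^ 2 := hkQ2
      _ = c' * k ^ 2 * 1 := (mul_one _).symm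
      _ ≤ Yr := by rw [hYr]; exact mul_le_mul_of_nonneg_left hu1 (by positivity)
  · rw [hSN]; exact m6
  · rw [hSN]; exact m7
  · rw [hSN]; exact m8
  · rw [hSN]; exact m9
  · rw [hSN]
    refine num_h5 hC hK1 ht1' hz0 ?_ hp1 hp2 hXY s1 m3 hτ0.le ht₃ ht₄
    refine le_trans ?_ hz1
    exact Real.rpow_le_rpow_of_exponent_le ht1' (by linarith)

end Vale.Agent.P054.T3.H900
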