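import Vale.Agent.P054.T3.H900.Share
import Vale.Agent.P054.T3.H197.NearW

set_option autoImplicit false
set_option linter.all false

/-!
# P054 / T3, d = 3: selection of the edges without rich isometries

`selA`: by the near-step (interior regime); `selB`: with a constant threshold, from a bound of the
number of edges in rich graphs (boundary regime).
-/

namespace Vale.Agent.P054.T3.H900

open Finset Module
open Vale.Agent.P054.T2.H686 (E)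
open Vale.Agent.P054.T3.H109.Gen (onL lineC onL_left onL_right)
open Vale.Agent.P054.T3.H190
open Vale.Agent.P054.T3.H637 (dt)

variable {n : ℕ}

/-- at the edge `e = (s, r)`, for every isometry graph of determinant `ε` through `s` and `r`:
few edges leave `s` or few edges enter `r` within the graph -/
def OrL (E0 : Finset ((E n × E n) × (E n × E n))) (m : E n × E n → ℕ) (ε : ℝ)
    (e : (E n × E n) × (E n × E n)) : Prop :=
  ∀ Φ : E n ≃ₗᵢ[ℝ] E n, dt Φ = ε → e.2.1 - e.1.1 = Φ (e.2.2 - e.1.2) →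
    (∀ cl : Finset (E n × E n), (∀ x ∈ cl, (e.1, x) ∈ E0 ∧ x.1 - e.1.1 = Φ (x.2 - e.1.2)) →
      cl.card ≤ m e.1) ∨
    (∀ cl : Finset (E n × E n), (∀ x ∈ cl, (x, e.2) ∈ E0 ∧ x.1 - e.1.1 = Φ (x.2 - e.1.2)) →
      cl.card ≤ m e.2)

/-- edges leaving `s` inside a set -/
theorem card_out_le {S A cl : Finset (E n × E n)} {s : E n × E n}
    (h : ∀ x ∈ cl, (s, x) ∈ E1 adj S ∧ x ∈ A) : cl.card ≤ (lns adj A s).card := by
  classical
  refine Finset.card_le_card_of_injOn (fun x => dr s x) ?_ ?_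
  · intro x hx
    obtain ⟨h1, h2⟩ := h x (mem_coe.1 hx)
    exact mem_coe.2 (mem_lns.2 ⟨x, h2, (mem_E1.1 h1).2.1, rfl⟩)
  · intro x hx x' hx' he
    obtain ⟨h1, h2⟩ := h x (mem_coe.1 hx)
    obtain ⟨h1', h2'⟩ := h x' (mem_coe.1 hx')
    have e1 : dr s x = dr s x' := he
    exact E1_unique h1 h1' (adjL.ne _ _ (mem_E1.1 h1).2.1) (onL_of_dr_eq e1.symm)
      (adjL.ne _ _ (mem_E1.1 h1').2.1)

/-- edges entering `r` inside a set -/
theorem card_in_le {S A cl : Finset (E n × E n)} {r : E n × E n}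
    (h : ∀ x ∈ cl, (x, r) ∈ E1 adj S ∧ x ∈ A) : cl.card ≤ (lns adj A r).card := by
  classical
  refine Finset.card_le_card_of_injOn (fun x => dr r x) ?_ ?_
  · intro x hx
    obtain ⟨h1, h2⟩ := h x (mem_coe.1 hx)
    exact mem_coe.2 (mem_lns.2 ⟨x, h2, adjL.symm _ _ (mem_E1.1 h1).2.1, rfl⟩)
  · intro x hx x' hx' he
    obtain ⟨h1, h2⟩ := h x (mem_coe.1 hx)
    obtain ⟨h1', h2'⟩ := h x' (mem_coe.1 hx')
    have e1 : dr r x = dr r x' := he
    exact E1_unique' h1 h1' (adjL.ne _ _ (mem_E1.1 h1).2.1) (onL_of_dr_eq e1.symm)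
      (adjL.ne _ _ (mem_E1.1 h1').2.1)

/-- two different traces share at most one direction at a common point -/
theorem card_lns_inter_le [DecidableEq (Submodule ℝ (E 2 × E 2))] {S : Finset (E 2 × E 2)}
    {ε : ℝ} {A B : Finset (E 2 × E 2)}
    (hA : IsTr S ε A) (hB : IsTr S ε B) (hne : A ≠ B) {s : E 2 × E 2} (hsA : s ∈ A)
    (hsB : s ∈ B) : (lns adj A s ∩ lns adj B s).card ≤ 1 := by
  have key : ∀ l, l ∈ lns adj A s → l ∈ lns adj B s → ∃ r, r ∈ A ∧ r ∈ B ∧ r ≠ s ∧ dr s r = l := by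
    intro l hl hl'
    obtain ⟨r, h1, h2, h3⟩ := mem_lns.1 hl
    obtain ⟨r', h1', h2', h3'⟩ := mem_lns.1 hl'
    refine ⟨r, h1, ?_, (adjL.ne _ _ h2).symm, h3⟩
    exact hB.onL_mem hsB h1' (hA.subset h1) (onL_of_dr_eq (h3.trans h3'.symm))
  rw [card_le_one]
  intro l hl l' hl'
  rw [mem_inter] at hl hl'
  obtain ⟨r, h1, h2, h3, h4⟩ := key l hl.1 hl.2
  obtain ⟨r', h1', h2', h3', h4'⟩ := key l' hl'.1 hl'.2
  rw [← h4, ← h4']
  exact (dr_eq_of_onL (share hA hB hne hsA hsB h1 h2 h3 h1' h2') h3').symm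

open scoped Classical in
/-- **selection, interior regime** -/
theorem selA {C : Type*} {S : Finset (E 2 × E 2)} {ε : ℝ} (cl : E 2 × E 2 → C) (κ₀ L : ℕ)
    (hcl : ∀ A ∈ tr S ε, (A.image cl).card ≤ κ₀)
    (hL : ∀ A ∈ tr S ε, ∀ p ∈ A.offDiag, lineC A p.1 p.2 ≤ L) (c₀ M : ℕ) (hc₀ : 1 ≤ c₀)
    (hM1 : 1 ≤ M) (Ms : E 2 × E 2 → ℕ) (hM : ∀ s ∈ S, M ≤ Ms s)
    (hMs : ∀ s ∈ S, 4 * c₀ * (lns adj S s).card ≤ Ms s ^ 2)
    (hsum : 1990656 * κ₀ * (∑ c ∈ S.image cl, (W adj (S.filter fun s => cl s = c) : ℝ) +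
      (1 / c₀ + 2 * (L + 1) / M) * W adj S) ≤ (W adj S : ℝ) / 2) :
    ∃ E0 ⊆ E1 adj S, (W adj S : ℝ) / 2 ≤ E0.card ∧ ∀ e ∈ E0, OrL E0 Ms ε e := by
  set Q : (E 2 × E 2) × (E 2 × E 2) → Prop := fun e => ∃ A ∈ tr S ε, e.1 ∈ A ∧ e.2 ∈ A ∧
    Ms e.1 ≤ (lns adj A e.1).card ∧ Ms e.2 ≤ (lns adj A e.2).card with hQ
  have hbad : (((E1 adj S).filter Q).card : ℝ) ≤ (W adj S : ℝ) / 2 := by
    refine le_trans ?_ hsum
    refine H197.nearW adj Ms (tr S ε) S (fun A hA => (mem_tr.1 hA).subset)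
      (fun A hA s hs r hr hne => (mem_tr.1 hA).adj hs hr hne) ?_ cl κ₀ hcl L hL c₀ M hc₀ hM1 hM
      hMs _ (fun e he => (mem_filter.1 he).2)
    intro A hA B hB hne s hs hs'
    exact card_lns_inter_le (mem_tr.1 hA) (mem_tr.1 hB) hne hs hs'
  refine ⟨(E1 adj S).filter fun e => ¬ Q e, filter_subset _ _, ?_, ?_⟩
  · have h1 := card_filter_add_card_filter_not (s := E1 adj S) Q
    rw [card_E1 adjL] at h1
    have h2 : (((E1 adj S).filter Q).card : ℝ) + ((E1 adj S).filter fun e => ¬ Q e).card =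
        W adj S := by exact_mod_cast h1
    linarith
  · intro e he Φ hΦ h1
    obtain ⟨he1, he2⟩ := mem_filter.1 he
    obtain ⟨⟨hs, hr⟩, -, -⟩ := mem_E1.1 he1
    have hA := trAt_mem (S := S) hΦ e.1
    have hsA : e.1 ∈ trAt S Φ e.1 := mem_trAt.2 ⟨hs, by rw [sub_self, sub_self, map_zero]⟩
    have hrA : e.2 ∈ trAt S Φ e.1 := mem_trAt.2 ⟨hr, h1⟩
    by_cases h2 : Ms e.1 ≤ (lns adj (trAt S Φ e.1) e.1).card
    · right
      have h3 : (lns adj (trAt S Φ e.1) e.2).card < Ms e.2 := by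
        by_contra h4
        exact he2 ⟨_, hA, hsA, hrA, h2, not_lt.1 h4⟩
      intro c hc
      refine (card_in_le (S := S) (A := trAt S Φ e.1) fun x hx => ?_).trans h3.le
      obtain ⟨h5, h6⟩ := hc x hx
      have h7 := (mem_filter.1 h5).1
      exact ⟨h7, mem_trAt.2 ⟨(mem_E1.1 h7).1.1, h6⟩⟩
    · left
      intro c hc
      refine (card_out_le (S := S) (A := trAt S Φ e.1) fun x hx => ?_).trans (not_le.1 h2).le
      obtain ⟨h5, h6⟩ := hc x hx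
      have h7 := (mem_filter.1 h5).1
      exact ⟨h7, mem_trAt.2 ⟨(mem_E1.1 h7).1.2, h6⟩⟩

open scoped Classical in
/-- **selection, boundary regime**: `hrich` bounds the number of pairs in rich graphs -/
theorem selB {S : Finset (E 2 × E 2)} {ε : ℝ} (M : ℕ)
    (hrich : ∀ A : Finset ((E 2 × E 2) × (E 2 × E 2)), (∀ e ∈ A, e.1 ∈ S ∧ e.2 ∈ S ∧
      ∃ Φ : E 2 ≃ₗᵢ[ℝ] E 2, e.2.1 - e.1.1 = Φ (e.2.2 - e.1.2) ∧ ∃ cl : Finset (E 2 × E 2),
        cl ⊆ S ∧ (∀ x ∈ cl, x.1 - e.1.1 = Φ (x.2 - e.1.2)) ∧ M ≤ cl.card) →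
      (A.card : ℝ) ≤ (W adj S : ℝ) / 2) :
    ∃ E0 ⊆ E1 adj S, (W adj S : ℝ) / 2 ≤ E0.card ∧ ∀ e ∈ E0, OrL E0 (fun _ => M) ε e := by
  set Q : (E 2 × E 2) × (E 2 × E 2) → Prop := fun e => ∃ Φ : E 2 ≃ₗᵢ[ℝ] E 2,
    e.2.1 - e.1.1 = Φ (e.2.2 - e.1.2) ∧ ∃ cl : Finset (E 2 × E 2),
        cl ⊆ S ∧ (∀ x ∈ cl, x.1 - e.1.1 = Φ (x.2 - e.1.2)) ∧ M ≤ cl.card with hQ
  have hbad : (((E1 adj S).filter Q).card : ℝ) ≤ (W adj S : ℝ) / 2 := by
    refine hrich _ fun e he => ?_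
    obtain ⟨h1, h2⟩ := mem_filter.1 he
    exact ⟨(mem_E1.1 h1).1.1, (mem_E1.1 h1).1.2, h2⟩
  refine ⟨(E1 adj S).filter fun e => ¬ Q e, filter_subset _ _, ?_, ?_⟩
  · have h1 := card_filter_add_card_filter_not (s := E1 adj S) Q
    rw [card_E1 adjL] at h1
    have h2 : (((E1 adj S).filter Q).card : ℝ) + ((E1 adj S).filter fun e => ¬ Q e).card =
        W adj S := by exact_mod_cast h1
    linarith
  · intro e he Φ hΦ h1
    obtain ⟨he1, he2⟩ := mem_filter.1 he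
    left
    intro c hc
    by_contra h2
    refine he2 ⟨Φ, h1, c, fun x hx => ?_, fun x hx => (hc x hx).2, (not_le.1 h2).le⟩
    have h3 := (mem_filter.1 (hc x hx).1).1
    exact (mem_E1.1 h3).1.2

end Vale.Agent.P054.T3.H900
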