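import Mathlib

set_option autoImplicit false
set_option linter.all false

/-!
# P054 / T3, d = 3: the numbers of the selection

`k = K^(1/3)`, `u = z^(-1/24)`, `c' = √(c/8)`, `Y = c' k² u`.
-/

namespace Vale.Agent.P054.T3.H900

theorem nums_h4 {c' C k u x N t τ T Y : ℝ} (hc : 0 < c') (hC : 1 ≤ C) (hk : 1 ≤ k) (hu : 1 ≤ u)
    (hN : 0 < N) (ht : 1 ≤ t) (hτp : 0 < τ) (hT0 : 0 ≤ T) (hτ2 : τ ≤ 2 * x)
    (h3 : x * u ^ 9 ≤ C * t) (a2 : T ≤ 2 * C * t) (h4 : k ^ 6 * t ^ 3 ≤ N * u ^ 24)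
    (hk3 : 8 * C ^ 3 ≤ c' ^ 30 * k ^ 66) (hY : Y = c' * k ^ 2 * u) :
    τ * T ^ 2 ≤ Y ^ 30 * N := by
  have hk0 : 0 < k := by linarith
  have hu0 : 0 < u := by linarith
  have a1 : τ * u ^ 9 ≤ 2 * C * t := by
    calc τ * u ^ 9 ≤ (2 * x) * u ^ 9 := mul_le_mul_of_nonneg_right hτ2 (by positivity)
      _ = 2 * (x * u ^ 9) := by ring
      _ ≤ 2 * (C * t) := by linarith
      _ = _ := by ring
  have hCt : 0 ≤ 2 * C * t := by positivity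
  have a3 : τ * T ^ 2 * u ^ 9 ≤ 8 * C ^ 3 * t ^ 3 := by
    have b1 : T ^ 2 ≤ (2 * C * t) ^ 2 := pow_le_pow_left₀ hT0 a2 2
    calc τ * T ^ 2 * u ^ 9 = (τ * u ^ 9) * T ^ 2 := by ring
      _ ≤ (2 * C * t) * (2 * C * t) ^ 2 :=
          mul_le_mul a1 b1 (by positivity) hCt
      _ = _ := by ring
  have b1 : Y ^ 30 = c' ^ 30 * k ^ 60 * u ^ 30 := by rw [hY]; ring
  have b2 : (1 : ℝ) ≤ u ^ 15 := one_le_pow₀ hu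
  have a4 : 8 * C ^ 3 * t ^ 3 * u ^ 24 ≤ Y ^ 30 * N * u ^ 9 * u ^ 24 := by
    have c1 : 8 * C ^ 3 * (t ^ 3 * u ^ 24) ≤ (c' ^ 30 * k ^ 66) * (t ^ 3 * u ^ 24) :=
      mul_le_mul_of_nonneg_right hk3 (by positivity)
    have c2 : (c' ^ 30 * k ^ 60 * u ^ 24) * (k ^ 6 * t ^ 3) ≤
        (c' ^ 30 * k ^ 60 * u ^ 24) * (N * u ^ 24) :=
      mul_le_mul_of_nonneg_left h4 (by positivity)
    have c3 : (c' ^ 30 * k ^ 60 * u ^ 24 * (N * u ^ 24)) * 1 ≤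
        (c' ^ 30 * k ^ 60 * u ^ 24 * (N * u ^ 24)) * u ^ 15 :=
      mul_le_mul_of_nonneg_left b2 (by positivity)
    calc 8 * C ^ 3 * t ^ 3 * u ^ 24 = 8 * C ^ 3 * (t ^ 3 * u ^ 24) := by ring
      _ ≤ (c' ^ 30 * k ^ 66) * (t ^ 3 * u ^ 24) := c1
      _ = (c' ^ 30 * k ^ 60 * u ^ 24) * (k ^ 6 * t ^ 3) := by ring
      _ ≤ (c' ^ 30 * k ^ 60 * u ^ 24) * (N * u ^ 24) := c2
      _ = (c' ^ 30 * k ^ 60 * u ^ 24 * (N * u ^ 24)) * 1 := by ring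
      _ ≤ (c' ^ 30 * k ^ 60 * u ^ 24 * (N * u ^ 24)) * u ^ 15 := c3
      _ = Y ^ 30 * N * u ^ 9 * u ^ 24 := by rw [b1]; ring
  have a5 : 8 * C ^ 3 * t ^ 3 ≤ Y ^ 30 * N * u ^ 9 :=
    le_of_mul_le_mul_right a4 (by positivity)
  exact le_of_mul_le_mul_right (a3.trans a5) (by positivity)

/-- the lower bounds of `N` in terms of `τ ≤ 2 x` -/
theorem nums_lower {c' k u x N τ T₀ Y : ℝ} (hc : 0 < c') (hk : 1 ≤ k) (hu : 1 ≤ u)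
    (hx : 1 ≤ x) (hτp : 0 < τ) (hT0 : 0 ≤ T₀) (hτ2 : τ ≤ 2 * x)
    (h1 : 8 * c' ^ 2 * k ^ 6 * u ^ 3 * x ^ 3 ≤ N)
    (h2 : 8 * c' ^ 2 * k ^ 4 * u ^ 2 * (x ^ 2 * T₀) ≤ N) (hY : Y = c' * k ^ 2 * u) :
    c' * k ^ 4 * u ^ 2 * (Y * τ ^ 3) ≤ N ∧ Y * (Y * τ ^ 3) ≤ N ∧
      2 * (Y * (Y * (τ ^ 2 * T₀))) ≤ N := by
  have hk0 : 0 < k := by linarith
  have hu0 : 0 < u := by linarith
  have e1 : τ ^ 3 ≤ 8 * x ^ 3 := by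
    calc τ ^ 3 ≤ (2 * x) ^ 3 := pow_le_pow_left₀ hτp.le hτ2 3
      _ = _ := by ring
  have e2 : τ ^ 2 ≤ 4 * x ^ 2 := by
    calc τ ^ 2 ≤ (2 * x) ^ 2 := pow_le_pow_left₀ hτp.le hτ2 2
      _ = _ := by ring
  have f1 : c' ^ 2 * k ^ 6 * u ^ 3 * τ ^ 3 ≤ N := by
    calc c' ^ 2 * k ^ 6 * u ^ 3 * τ ^ 3 ≤ c' ^ 2 * k ^ 6 * u ^ 3 * (8 * x ^ 3) :=
          mul_le_mul_of_nonneg_left e1 (by positivity)
      _ = 8 * c' ^ 2 * k ^ 6 * u ^ 3 * x ^ 3 := by ring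
      _ ≤ N := h1
  have f2 : 2 * c' ^ 2 * k ^ 4 * u ^ 2 * (τ ^ 2 * T₀) ≤ N := by
    calc 2 * c' ^ 2 * k ^ 4 * u ^ 2 * (τ ^ 2 * T₀)
        ≤ 2 * c' ^ 2 * k ^ 4 * u ^ 2 * ((4 * x ^ 2) * T₀) :=
          mul_le_mul_of_nonneg_left (mul_le_mul_of_nonneg_right e2 hT0) (by positivity)
      _ = 8 * c' ^ 2 * k ^ 4 * u ^ 2 * (x ^ 2 * T₀) := by ring
      _ ≤ N := h2
  refine ⟨?_, ?_, ?_⟩
  · refine le_trans (le_of_eq ?_) f1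
    rw [hY]; ring
  · refine le_trans ?_ f1
    have e3 : Y * (Y * τ ^ 3) = c' ^ 2 * (k ^ 4 * u ^ 2) * τ ^ 3 := by rw [hY]; ring
    have e4 : k ^ 4 ≤ k ^ 6 := pow_le_pow_right₀ hk (by norm_num)
    have e5 : u ^ 2 ≤ u ^ 3 := pow_le_pow_right₀ hu (by norm_num)
    have e6 : k ^ 4 * u ^ 2 ≤ k ^ 6 * u ^ 3 := mul_le_mul e4 e5 (by positivity) (by positivity)
    rw [e3]
    calc c' ^ 2 * (k ^ 4 * u ^ 2) * τ ^ 3 ≤ c' ^ 2 * (k ^ 6 * u ^ 3) * τ ^ 3 :=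
          mul_le_mul_of_nonneg_right (mul_le_mul_of_nonneg_left e6 (by positivity))
            (by positivity)
      _ = _ := by ring
  · refine le_trans (le_of_eq ?_) f2
    rw [hY]; ring

/-- the numbers, with `k`, `u`; `x = N²/W`; `τ = ⌈x⌉`, `T = max T₀ τ`, `M = ⌊N / (Y τ²)⌋` -/
theorem nums_core {c' C A₀ k u x N t : ℝ} {T₀ : ℕ} (hc : 0 < c') (hC : 1 ≤ C)
    (hA : 0 ≤ A₀) (hk : 1 ≤ k) (hu : 1 ≤ u) (hx : 1 ≤ x) (hN : 0 < N) (ht : 1 ≤ t)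
    (h1 : 8 * c' ^ 2 * k ^ 6 * u ^ 3 * x ^ 3 ≤ N)
    (h2 : 8 * c' ^ 2 * k ^ 4 * u ^ 2 * (x ^ 2 * T₀) ≤ N)
    (h3 : x * u ^ 9 ≤ C * t) (hT₀ : (T₀ : ℝ) ≤ C * t) (h4 : k ^ 6 * t ^ 3 ≤ N * u ^ 24)
    (hk1 : 1 ≤ c' * k ^ 2) (hk2 : 2 * A₀ + 4 ≤ c' * k ^ 2) (hk3 : 8 * C ^ 3 ≤ c' ^ 30 * k ^ 66)
    {Y : ℝ} (hY : Y = c' * k ^ 2 * u) :
    ∃ τ T M : ℕ, 1 ≤ τ ∧ x ≤ τ ∧ (τ : ℝ) ≤ 2 * x ∧ τ ≤ T ∧ T₀ ≤ T ∧
      Y * τ ^ 3 ≤ N ∧ Y * (τ ^ 2 * T) ≤ N ∧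
      Y * (M * τ ^ 2) ≤ N ∧ (τ : ℝ) * T ^ 2 ≤ Y ^ 30 * N ∧
      A₀ * (T₀ + 1) ≤ M ∧ N ≤ 2 * M * (Y * τ ^ 2) ∧
      c' * k ^ 4 * u ^ 2 * (Y * τ ^ 3) ≤ N := by
  have hY1 : c' * k ^ 2 ≤ Y := by
    rw [hY]; exact le_mul_of_one_le_right (by positivity) hu
  have hY2 : 1 ≤ Y := hk1.trans hY1
  have hY3 : 2 * A₀ + 4 ≤ Y := hk2.trans hY1
  have hY0 : 0 < Y := by linarith
  obtain ⟨τ, hτ⟩ : ∃ τ : ℕ, τ = ⌈x⌉₊ := ⟨_, rfl⟩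
  have hτ1 : x ≤ τ := by rw [hτ]; exact Nat.le_ceil _
  have hτ2 : (τ : ℝ) ≤ 2 * x := by
    have : (τ : ℝ) < x + 1 := by rw [hτ]; exact Nat.ceil_lt_add_one (by linarith)
    linarith
  have hτ0 : (1 : ℝ) ≤ τ := hx.trans hτ1
  have hτn : 1 ≤ τ := by exact_mod_cast hτ0
  have hτp : (0 : ℝ) < τ := by linarith
  have hT0 : (0 : ℝ) ≤ T₀ := Nat.cast_nonneg _
  obtain ⟨g0, g1, g2⟩ := nums_lower hc hk hu hx hτp hT0 hτ2 h1 h2 hY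
  have a2' : (τ : ℝ) ≤ 2 * C * t := by
    have b1 : x ≤ x * u ^ 9 := le_mul_of_one_le_right (by linarith) (one_le_pow₀ hu)
    linarith
  obtain ⟨T, hT⟩ : ∃ T : ℕ, T = max T₀ τ := ⟨_, rfl⟩
  have hTr : (T : ℝ) = max (T₀ : ℝ) τ := by rw [hT]; push_cast; rfl
  have a2 : (T : ℝ) ≤ 2 * C * t := by
    rw [hTr]
    refine max_le (hT₀.trans ?_) a2'
    have : 0 ≤ C * t := by positivity
    linarith
  have g5 := nums_h4 hc hC hk hu hN ht hτp (Nat.cast_nonneg T) hτ2 h3 a2 h4 hk3 hY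
  clear hY h1 h2 h3 h4 hk3 hk2 hk1 hY1
  obtain ⟨M, hM⟩ : ∃ M : ℕ, M = ⌊N / (Y * τ ^ 2)⌋₊ := ⟨_, rfl⟩
  have hq : 0 < Y * (τ : ℝ) ^ 2 := by positivity
  have hM1 : (M : ℝ) ≤ N / (Y * τ ^ 2) := by rw [hM]; exact Nat.floor_le (by positivity)
  have hM2 : N / (Y * τ ^ 2) < M + 1 := by rw [hM]; exact Nat.lt_floor_add_one _
  have g3 : Y ≤ N / (Y * τ ^ 2) := by
    rw [le_div_iff₀ hq]
    refine le_trans ?_ g1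
    have h5 : (τ : ℝ) ^ 2 ≤ τ ^ 3 := pow_le_pow_right₀ hτ0 (by norm_num)
    exact mul_le_mul_of_nonneg_left (mul_le_mul_of_nonneg_left h5 hY0.le) hY0.le
  have g4 : 2 * Y * T₀ ≤ N / (Y * τ ^ 2) := by
    rw [le_div_iff₀ hq]
    refine le_trans (le_of_eq ?_) g2
    ring
  set q : ℝ := N / (Y * τ ^ 2) with hqdef
  have hMge : A₀ * (T₀ + 1) ≤ M := by
    have h5 : Y * (T₀ + 1) ≤ 2 * q := by
      have e : Y * ((T₀ : ℝ) + 1) = Y * T₀ + Y := by ring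
      have e' : 2 * Y * (T₀ : ℝ) = 2 * (Y * T₀) := by ring
      have e'' : 0 ≤ Y * (T₀ : ℝ) := by positivity
      rw [e]; rw [e'] at g4; linarith
    have h6 : (2 * A₀ + 4) * (T₀ + 1 : ℝ) ≤ Y * (T₀ + 1) :=
      mul_le_mul_of_nonneg_right hY3 (by positivity)
    have e : (2 * A₀ + 4) * ((T₀ : ℝ) + 1) = 2 * (A₀ * (T₀ + 1)) + 4 * (T₀ + 1) := by ring
    rw [e] at h6
    linarith
  refine ⟨τ, T, M, hτn, hτ1, hτ2, by rw [hT]; exact le_max_right _ _,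
    by rw [hT]; exact le_max_left _ _, ?_, ?_, ?_, g5, hMge, ?_, g0⟩
  · refine le_trans ?_ g1
    exact le_mul_of_one_le_left (by positivity) hY2
  · rcases le_total T₀ τ with h | h
    · have : (T : ℝ) = τ := by rw [hT, max_eq_right h]
      rw [this]
      calc Y * ((τ : ℝ) ^ 2 * τ) = 1 * (Y * τ ^ 3) := by ring
        _ ≤ Y * (Y * τ ^ 3) := mul_le_mul_of_nonneg_right hY2 (by positivity)
        _ ≤ N := g1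
    · have : (T : ℝ) = T₀ := by rw [hT, max_eq_left h]
      rw [this]
      have h0 : 0 ≤ Y * ((τ : ℝ) ^ 2 * T₀) := by positivity
      have h7 : 1 * (Y * ((τ : ℝ) ^ 2 * T₀)) ≤ Y * (Y * ((τ : ℝ) ^ 2 * T₀)) :=
        mul_le_mul_of_nonneg_right hY2 h0
      linarith
  · calc Y * ((M : ℝ) * τ ^ 2) = M * (Y * τ ^ 2) := by ring
      _ ≤ q * (Y * τ ^ 2) := mul_le_mul_of_nonneg_right hM1 hq.le
      _ = N := div_mul_cancel₀ _ hq.ne'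
  · have h6 : q ≤ 2 * M := by linarith
    rw [hqdef, div_le_iff₀ hq] at h6
    exact h6

end Vale.Agent.P054.T3.H900
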