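import Vale.Agent.P054.T3.H190.FlagE
import Vale.Agent.P054.T3.H533.CaseV
import Vale.Agent.P054.T3.H533.SepT
import Vale.Agent.P054.T3.H549.Bdry
import Vale.Agent.P054.T3.H900.SelA
import Vale.Agent.P054.T3.H900.SelNum

set_option autoImplicit false
set_option linter.all false

/-!
# P054 / T3, d = 3: the steps of the selection and the translation to the coordinates `(ζ, θ)`
-/

namespace Vale.Agent.P054.T3.H900

open Finset Module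
open Vale.Agent.P054.T2 Vale.Agent.P054.T2.SecC
open Vale.Agent.P054.T2.H686 (E zt zt_injective Ez Gm dists)
open Vale.Agent.P054.T2.H455 (Sep)
open Vale.Agent.P054.T3.H109.Gen (onL lineC onL_left onL_right lineC_eq)
open Vale.Agent.P054.T3.H190
open Vale.Agent.P054.T3.H637 (dt)
open Vale.Agent.P054.T3.H533 (MuK NoRichL uz uz_zt dn Det sep_of_dn)

/-- everything in the coordinates `(ζ, θ)` -/
theorem glue {P : Finset (E 2)} {B : E 2 ≃ₗᵢ[ℝ] E 2} (hB : Gm P B) {k : ℕ} {a : Fin k → E 2}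
    {X Y : Finset (E 2)} (hX : X ⊆ P) (hY : Y ⊆ P) (hdet : Det a P)
    {E0 : Finset ((E 2 × E 2) × (E 2 × E 2))} (hE0 : E0 ⊆ E1 adj (X ×ˢ Y))
    (Ms : E 2 × E 2 → ℕ) (hor : ∀ e ∈ E0, OrL E0 Ms (dt B) e) {T : ℕ}
    (hT : dn a X + dn a Y ≤ T) :
    ∃ (S : Finset (ZZ 2)) (E' : Finset (ZZ 2 × ZZ 2)), E' ⊆ Ez P B P.card ∧
      (∀ e ∈ E', e.1 ∈ S ∧ e.2 ∈ S) ∧ Sep (fun s : ZZ 2 => pt s) (4 * T) S ∧
      MuK E' 1 ∧ MuK (swp E') 1 ∧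
      (∀ e ∈ E', NoRichL B E' (fun z => Ms (uz B z)) (dt B) e) ∧ E'.card = E0.card ∧
      S.card = X.card * Y.card ∧
      ∀ U ⊆ S, ∃ U' ⊆ X ×ˢ Y, U.card = U'.card ∧
        (∑ z ∈ U, ((Ms (uz B z) : ℕ) : ℝ)) = ∑ s ∈ U', (Ms s : ℝ) := by
  classical
  have hS : X ×ˢ Y ⊆ P ×ˢ P := product_subset_product hX hY
  have hinj : Function.Injective (fun e : (E 2 × E 2) × (E 2 × E 2) => (zt B e.1, zt B e.2)) := by
    intro e e' h
    exact Prod.ext (zt_injective B (congrArg Prod.fst h)) (zt_injective B (congrArg Prod.snd h))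
  have hsub : E0.image (fun e => (zt B e.1, zt B e.2)) ⊆ E1z B (X ×ˢ Y) := by
    intro e he
    obtain ⟨f, hf, rfl⟩ := mem_image.1 he
    exact mem_E1z'.2 (hE0 hf)
  have hmem : ∀ s r, (zt B s, zt B r) ∈ E0.image (fun e => (zt B e.1, zt B e.2)) →
      (s, r) ∈ E0 := by
    intro s r h
    obtain ⟨f, hf, h1⟩ := mem_image.1 h
    have : f = (s, r) := hinj h1
    rwa [← this]
  refine ⟨(X ×ˢ Y).image (zt B), E0.image fun e => (zt B e.1, zt B e.2), ?_, ?_, ?_, ?_, ?_, ?_,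
    ?_, ?_, ?_⟩
  · exact hsub.trans (E1z_subset B hS)
  · intro e he
    obtain ⟨f, hf, rfl⟩ := mem_image.1 he
    obtain ⟨⟨h1, h2⟩, -, -⟩ := mem_E1.1 (hE0 hf)
    exact ⟨mem_image_of_mem _ h1, mem_image_of_mem _ h2⟩
  · refine (sep_of_dn a (hdet.subset hX) (hdet.subset hY) B _ (Finset.Subset.refl _)).mono_deg ?_
    omega
  · exact (muK_E1z hB le_rfl hS).subset hsub
  · refine (muK_swp_E1z hB le_rfl hS).subset ?_
    intro e he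
    exact mem_swp.2 (hsub (mem_swp.1 he))
  · intro e he
    obtain ⟨f, hf, rfl⟩ := mem_image.1 he
    intro Φ s r h1 h2 h3
    have e1 : f.1 = s := zt_injective B (congrArg Prod.fst h1)
    have e2 : f.2 = r := zt_injective B (congrArg Prod.snd h1)
    subst e1; subst e2
    rcases hor f hf Φ h2 h3 with h | h
    · left
      intro cl hcl
      show cl.card ≤ Ms (uz B (zt B f.1))
      rw [uz_zt]
      exact h cl fun x hx => ⟨hmem _ _ (hcl x hx).1, (hcl x hx).2⟩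
    · right
      intro cl hcl
      show cl.card ≤ Ms (uz B (zt B f.2))
      rw [uz_zt]
      exact h cl fun x hx => ⟨hmem _ _ (hcl x hx).1, (hcl x hx).2⟩
  · exact card_image_of_injective _ hinj
  · rw [card_image_of_injective _ (zt_injective B), card_product]
  · intro U hU
    obtain ⟨U', hU', rfl⟩ := subset_image_iff.1 hU
    refine ⟨U', hU', card_image_of_injective _ (zt_injective B), ?_⟩
    rw [sum_image fun x _ y _ h => zt_injective B h]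
    refine sum_congr rfl fun s _ => ?_
    rw [uz_zt]

/-- sum of the local thresholds -/
theorem msum {S : Finset (E 2 × E 2)} (c₀ M : ℕ) (hc₀ : 1 ≤ c₀) {Ms : E 2 × E 2 → ℕ}
    (hMs : ∀ s, Ms s ≤ M + Nat.sqrt (4 * c₀ * (lns adj S s).card)) {N τ : ℝ} (hτ : 0 < τ)
    (hW : (W adj S : ℝ) * τ ≤ 2 * N ^ 2) (U : Finset (E 2 × E 2)) (hU : U ⊆ S) :
    ∑ s ∈ U, (Ms s : ℝ) ≤ U.card * M + 8 * c₀ * √(U.card * (N ^ 2 / τ)) := by
  have h1 : ∑ s ∈ U, (Ms s : ℝ) ≤ ∑ s ∈ U, ((M : ℝ) + √(4 * c₀ * (lns adj S s).card)) := by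
    refine sum_le_sum fun s _ => ?_
    have e1 : (Ms s : ℝ) ≤ M + Nat.sqrt (4 * c₀ * (lns adj S s).card) := by exact_mod_cast hMs s
    have e2 := Real.nat_sqrt_le_real_sqrt (a := 4 * c₀ * (lns adj S s).card)
    have e3 : (((4 * c₀ * (lns adj S s).card : ℕ) : ℝ)) = 4 * c₀ * (lns adj S s).card := by
      push_cast; ring
    rw [e3] at e2
    linarith
  rw [sum_add_distrib, sum_const, nsmul_eq_mul] at h1
  refine h1.trans (add_le_add_right ?_ _)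
  have h2 := sq_sum_le_card_mul_sum_sq (s := U)
    (f := fun s => √(4 * c₀ * ((lns adj S s).card : ℝ)))
  have h3 : ∑ s ∈ U, √(4 * c₀ * ((lns adj S s).card : ℝ)) ^ 2 ≤ 4 * c₀ * W adj S := by
    have e1 : ∀ s ∈ U, √(4 * c₀ * ((lns adj S s).card : ℝ)) ^ 2 = 4 * c₀ * (lns adj S s).card := by
      intro s _
      exact Real.sq_sqrt (by positivity)
    rw [sum_congr rfl e1, ← mul_sum]
    refine mul_le_mul_of_nonneg_left ?_ (by positivity)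
    rw [W_eq_sum]
    push_cast
    exact sum_le_sum_of_subset_of_nonneg hU fun _ _ _ => by positivity
  have hc : (1 : ℝ) ≤ c₀ := by exact_mod_cast hc₀
  have h4 : 4 * c₀ * (W adj S : ℝ) ≤ 8 * c₀ * (N ^ 2 / τ) := by
    have e1 : (W adj S : ℝ) ≤ 2 * N ^ 2 / τ := by rw [le_div_iff₀ hτ]; exact hW
    calc 4 * c₀ * (W adj S : ℝ) ≤ 4 * c₀ * (2 * N ^ 2 / τ) :=
          mul_le_mul_of_nonneg_left e1 (by positivity)
      _ = _ := by ring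
  have hq : 0 ≤ N ^ 2 / τ := by positivity
  have h5 : (∑ s ∈ U, √(4 * c₀ * ((lns adj S s).card : ℝ))) ^ 2 ≤
      (8 * c₀ * √(U.card * (N ^ 2 / τ))) ^ 2 := by
    refine h2.trans ?_
    rw [mul_pow, Real.sq_sqrt (by positivity)]
    calc (U.card : ℝ) * ∑ s ∈ U, √(4 * c₀ * ((lns adj S s).card : ℝ)) ^ 2
        ≤ U.card * (8 * c₀ * (N ^ 2 / τ)) :=
          mul_le_mul_of_nonneg_left (h3.trans h4) (by positivity)
      _ = (8 * c₀) * (U.card * (N ^ 2 / τ)) := by ring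
      _ ≤ (8 * c₀) ^ 2 * (U.card * (N ^ 2 / τ)) := by
          refine mul_le_mul_of_nonneg_right ?_ (by positivity)
          have : (1 : ℝ) ≤ 8 * c₀ := by linarith
          calc (8 * c₀ : ℝ) = (8 * c₀) * 1 := by ring
            _ ≤ (8 * c₀) * (8 * c₀) := mul_le_mul_of_nonneg_left this (by positivity)
            _ = _ := by ring
  exact le_of_sq_le_sq h5 (by positivity) |>.trans le_rfl

theorem two_pow_cancel (q : ℕ) :
    (8 : ℝ) ^ (4 * q) * ((2 : ℝ) ^ (4 * q)) ^ (-(13 / 4) : ℝ) * 2 ^ q = 1 := by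
  have e1 : (8 : ℝ) ^ (4 * q) = (2 : ℝ) ^ ((12 * q : ℕ) : ℝ) := by
    rw [Real.rpow_natCast, show (8 : ℝ) = 2 ^ 3 by norm_num, ← pow_mul]
    congr 1; ring
  have e2 : ((2 : ℝ) ^ (4 * q)) ^ (-(13 / 4) : ℝ) = (2 : ℝ) ^ (-(13 * q : ℝ)) := by
    rw [← Real.rpow_natCast, ← Real.rpow_mul (by norm_num)]
    congr 1; push_cast; ring
  have e3 : (2 : ℝ) ^ q = (2 : ℝ) ^ (q : ℝ) := (Real.rpow_natCast _ _).symm
  rw [e1, e2, e3, ← Real.rpow_add (by norm_num), ← Real.rpow_add (by norm_num)]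
  have : (((12 * q : ℕ) : ℝ) + -(13 * (q : ℝ)) + (q : ℝ)) = 0 := by push_cast; ring
  rw [this, Real.rpow_zero]

theorem lineC_mono' {V : Type*} [AddCommGroup V] [Module ℝ V] {S T : Finset V} (h : S ⊆ T)
    (x y : V) : lineC S x y ≤ lineC T x y := by
  classical
  rw [lineC_eq, lineC_eq]
  exact card_le_card (filter_subset_filter _ h)

open scoped Classical in
/-- the interior regime -/
theorem stepA {C : ℝ} {q : ℕ} (hC : 1 ≤ C) (hq : 8 * 1990656 * C ^ 2 ≤ 2 ^ q) {γ : Type*}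
    {X Y : Finset (E 2)} {k : ℕ} (a : Fin k → E 2) (i₀ : Fin k) (cl : E 2 × E 2 → γ)
    (hcl : ∀ A ⊆ X ×ˢ Y, finrank ℝ (vectorSpan ℝ (A : Set (E 2 × E 2))) ≤ 3 →
      ((A.image cl).card : ℝ) ≤ C * 8 ^ (4 * q))
    (hsum : ∑ c ∈ (X ×ˢ Y).image cl, (W adj ((X ×ˢ Y).filter fun s => cl s = c) : ℝ) ≤
      C * ((2 : ℝ) ^ (4 * q)) ^ (-(13 / 4) : ℝ) * W adj (X ×ˢ Y)) {M κ₀ c₀ : ℕ}
    (hκ : κ₀ = ⌊C * 8 ^ (4 * q)⌋₊) (hc₀ : c₀ = 16 * 1990656 * κ₀)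
    (hM : (64 * 1990656 * κ₀ : ℝ) * ((dn a X + dn a Y : ℕ) + 1) ≤ M) (δ : ℝ) :
    ∃ (E0 : Finset ((E 2 × E 2) × (E 2 × E 2))) (Ms : E 2 × E 2 → ℕ), E0 ⊆ E1 adj (X ×ˢ Y) ∧
      (W adj (X ×ˢ Y) : ℝ) / 2 ≤ E0.card ∧ (∀ e ∈ E0, OrL E0 Ms δ e) ∧
      ∀ s, Ms s ≤ M + Nat.sqrt (4 * c₀ * (lns adj (X ×ˢ Y) s).card) := by
  have h8 : (1 : ℝ) ≤ C * 8 ^ (4 * q) := by
    have : (1 : ℝ) ≤ 8 ^ (4 * q) := one_le_pow₀ (by norm_num)
    nlinarith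
  have hκ1 : 1 ≤ κ₀ := by
    rw [hκ]; exact Nat.le_floor (by exact_mod_cast h8)
  have hκ2 : (κ₀ : ℝ) ≤ C * 8 ^ (4 * q) := by
    rw [hκ]; exact Nat.floor_le (by linarith)
  have hκr : (1 : ℝ) ≤ κ₀ := by exact_mod_cast hκ1
  have hM1 : 1 ≤ M := by
    have e1 : (0 : ℝ) < M := by
      refine lt_of_lt_of_le ?_ hM
      positivity
    exact_mod_cast e1
  set S := X ×ˢ Y with hS
  set L := 2 * dn a X with hL
  have g1 : ∀ A ∈ tr S δ, (A.image cl).card ≤ κ₀ := by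
    intro A hA
    rw [hκ]
    exact Nat.le_floor (hcl A (mem_tr.1 hA).subset (mem_tr.1 hA).finrank_le)
  have g2 : ∀ A ∈ tr S δ, ∀ p ∈ A.offDiag, lineC A p.1 p.2 ≤ L := by
    intro A hA p hp
    obtain ⟨p1, p2, p3⟩ := mem_offDiag.1 hp
    have h4 := ((mem_tr.1 hA).adj p1 p2 p3).1
    refine (lineC_mono' (mem_tr.1 hA).subset _ _).trans ?_
    refine (lineC_prod_le X Y (Finset.Subset.refl _) h4).trans ?_
    refine (H549.lineC_le_dist X (a i₀) _ _ h4).trans ?_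
    refine Nat.mul_le_mul_left 2 ?_
    unfold dn
    exact Finset.single_le_sum (f := fun i => (X.image fun x => dist x (a i)).card)
      (fun _ _ => Nat.zero_le _) (mem_univ i₀)
  have g3 : ∀ s ∈ S, 4 * c₀ * (lns adj S s).card ≤
      (max M (Nat.sqrt (4 * c₀ * (lns adj S s).card) + 1)) ^ 2 := by
    intro s _
    have e1 := Nat.lt_succ_sqrt (4 * c₀ * (lns adj S s).card)
    have e2 : Nat.sqrt (4 * c₀ * (lns adj S s).card) + 1 ≤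
        max M (Nat.sqrt (4 * c₀ * (lns adj S s).card) + 1) := le_max_right _ _
    calc 4 * c₀ * (lns adj S s).card ≤ (Nat.sqrt (4 * c₀ * (lns adj S s).card) + 1) ^ 2 := by
          rw [sq]; exact e1.le
      _ ≤ _ := Nat.pow_le_pow_left e2 2
  have g4 : 1990656 * (κ₀ : ℝ) * (∑ c ∈ S.image cl, (W adj (S.filter fun s => cl s = c) : ℝ) +
      (1 / (c₀ : ℝ) + 2 * ((L : ℝ) + 1) / M) * W adj S) ≤ (W adj S : ℝ) / 2 := by
    set w : ℝ := (W adj S : ℝ) with hw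
    have hw0 : 0 ≤ w := Nat.cast_nonneg _
    have a1 : 1990656 * (κ₀ : ℝ) * ∑ c ∈ S.image cl, (W adj (S.filter fun s => cl s = c) : ℝ) ≤
        w / 8 := by
      have b1 := two_pow_cancel q
      have b2 : (0 : ℝ) < 2 ^ q := by positivity
      calc 1990656 * (κ₀ : ℝ) * ∑ c ∈ S.image cl, (W adj (S.filter fun s => cl s = c) : ℝ)
          ≤ 1990656 * (κ₀ : ℝ) * (C * ((2 : ℝ) ^ (4 * q)) ^ (-(13 / 4) : ℝ) * w) :=
            mul_le_mul_of_nonneg_left hsum (by positivity)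
        _ ≤ 1990656 * (C * 8 ^ (4 * q)) * (C * ((2 : ℝ) ^ (4 * q)) ^ (-(13 / 4) : ℝ) * w) := by
            refine mul_le_mul_of_nonneg_right ?_ (by positivity)
            exact mul_le_mul_of_nonneg_left hκ2 (by norm_num)
        _ = 1990656 * C ^ 2 * w * (8 ^ (4 * q) * ((2 : ℝ) ^ (4 * q)) ^ (-(13 / 4) : ℝ)) := by
            ring
        _ = 1990656 * C ^ 2 * w / 2 ^ q := by
            rw [eq_div_iff b2.ne', mul_assoc, b1, mul_one]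
        _ ≤ w / 8 := by
            rw [div_le_iff₀ b2]
            calc 1990656 * C ^ 2 * w = (8 * 1990656 * C ^ 2) * (w / 8) := by ring
              _ ≤ 2 ^ q * (w / 8) := mul_le_mul_of_nonneg_right hq (by positivity)
              _ = _ := by ring
    have a2 : 1990656 * (κ₀ : ℝ) * (1 / (c₀ : ℝ)) = 1 / 16 := by
      rw [hc₀]; push_cast
      field_simp
      norm_num
    have a3 : 1990656 * (κ₀ : ℝ) * (2 * ((L : ℝ) + 1) / M) ≤ 1 / 16 := by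
      have c1 : (0 : ℝ) < M := by exact_mod_cast hM1
      have c2 : ((L : ℝ) + 1) ≤ 2 * ((dn a X + dn a Y : ℕ) + 1) := by
        rw [hL]; push_cast
        have : (0 : ℝ) ≤ dn a Y := Nat.cast_nonneg _
        linarith
      rw [mul_div_assoc', div_le_iff₀ c1]
      calc 1990656 * (κ₀ : ℝ) * (2 * ((L : ℝ) + 1))
          ≤ 1990656 * (κ₀ : ℝ) * (2 * (2 * ((dn a X + dn a Y : ℕ) + 1))) := by
            refine mul_le_mul_of_nonneg_left ?_ (by positivity)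
            linarith
        _ = (64 * 1990656 * κ₀ : ℝ) * ((dn a X + dn a Y : ℕ) + 1) / 16 := by ring
        _ ≤ M / 16 := by linarith
        _ = _ := by ring
    have a4 : 1990656 * (κ₀ : ℝ) * ((1 / (c₀ : ℝ) + 2 * ((L : ℝ) + 1) / M) * w) ≤ w / 8 := by
      calc 1990656 * (κ₀ : ℝ) * ((1 / (c₀ : ℝ) + 2 * ((L : ℝ) + 1) / M) * w)
          = (1990656 * (κ₀ : ℝ) * (1 / (c₀ : ℝ)) + 1990656 * (κ₀ : ℝ) * (2 * ((L : ℝ) + 1) / M)) *
            w := by ring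
        _ ≤ (1 / 16 + 1 / 16) * w := by
            refine mul_le_mul_of_nonneg_right ?_ hw0
            rw [a2]; linarith
        _ = w / 8 := by ring
    rw [mul_add]
    linarith
  obtain ⟨E0, h1, h2, h3⟩ := selA (S := S) (ε := δ) cl κ₀ L g1 g2
    c₀ M (by omega) hM1 (fun s => max M (Nat.sqrt (4 * c₀ * (lns adj S s).card) + 1))
    (fun s _ => le_max_left _ _) g3 g4
  refine ⟨E0, _, h1, h2, h3, fun s => ?_⟩
  exact max_le (Nat.le_add_right _ _) (by omega)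

/-- the boundary regime -/
theorem stepB (ε : ℝ) (hε : 0 < ε) : ∃ (K1 : ℕ) (Cr : ℝ), 0 < Cr ∧
    ∀ (X Y : Finset (E 2)) (k : ℕ) (a : Fin k → E 2) (i₀ : Fin k) (M : ℕ) (δ : ℝ), Y.Nonempty →
      4 * (dn a X + dn a Y) + K1 ≤ M →
      Cr * ((X.card : ℝ) * Y.card) ^ (2 + ε) ≤ M * ((W adj (X ×ˢ Y) : ℝ) / 2) →
      ∃ E0 ⊆ E1 adj (X ×ˢ Y), (W adj (X ×ˢ Y) : ℝ) / 2 ≤ E0.card ∧
        ∀ e ∈ E0, OrL E0 (fun _ => M) δ e := by
  classical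
  obtain ⟨K1, Cr, hCr, hr⟩ := H549.rich_pairs ε hε
  refine ⟨K1, Cr, hCr, fun X Y k a i₀ M δ hY hM hnum => ?_⟩
  have h1 : (Y.image fun x => dist x (a i₀)).card ≤ dn a Y := by
    unfold dn
    exact Finset.single_le_sum (f := fun i => (Y.image fun x => dist x (a i)).card)
      (fun _ _ => Nat.zero_le _) (mem_univ i₀)
  have h2 : 1 ≤ (Y.image fun x => dist x (a i₀)).card := (hY.image _).card_pos
  have hMp : 0 < M := by omega
  refine selB (S := X ×ˢ Y) (ε := δ) M fun A hA => ?_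
  have h3 := hr X Y A (2 * dn a Y) M (by omega) (by omega) (fun x _ y _ hxy => by
    refine (H549.lineC_le_dist Y (a i₀) x y hxy).trans ?_
    exact Nat.mul_le_mul_left 2 h1) hA
  have h4 : (0 : ℝ) < M := by exact_mod_cast hMp
  exact le_of_mul_le_mul_left (h3.trans hnum) h4

/-- the numbers `k`, `u` -/
theorem exists_ku {K z : ℝ} (hK : 1 ≤ K) (hz : 0 < z) (hz1 : z ≤ 1) : ∃ k u : ℝ, 1 ≤ k ∧ 1 ≤ u ∧
    k ^ 3 = K ∧ k ^ 4 = K ^ (4 / 3 : ℝ) ∧ k ^ 6 = K ^ 2 ∧ z ^ (3 / 8 : ℝ) * u ^ 9 = 1 ∧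
    u ^ 2 = z ^ (-(1 / 12) : ℝ) ∧ u ^ 3 = z ^ (-(1 / 8) : ℝ) ∧ z * u ^ 24 = 1 := by
  have hK0 : 0 ≤ K := by linarith
  have hk : ∀ j : ℕ, (K ^ (1 / 3 : ℝ)) ^ j = K ^ ((j : ℝ) / 3) := by
    intro j
    rw [← Real.rpow_natCast, ← Real.rpow_mul hK0]
    congr 1; ring
  have hu : ∀ j : ℕ, (z ^ (-(1 / 24) : ℝ)) ^ j = z ^ (-((j : ℝ) / 24)) := by
    intro j
    rw [← Real.rpow_natCast, ← Real.rpow_mul hz.le]
    congr 1; ring
  have e3 : (K ^ (1 / 3 : ℝ)) ^ 3 = K := by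
    rw [hk]; norm_num
  refine ⟨K ^ (1 / 3 : ℝ), z ^ (-(1 / 24) : ℝ), Real.one_le_rpow hK (by norm_num),
    Real.one_le_rpow_of_pos_of_le_one_of_nonpos hz hz1 (by norm_num), e3, ?_, ?_, ?_, ?_, ?_, ?_⟩
  · rw [hk]; norm_num
  · calc (K ^ (1 / 3 : ℝ)) ^ 6 = ((K ^ (1 / 3 : ℝ)) ^ 3) ^ 2 := by ring
      _ = _ := by rw [e3]
  · rw [hu, ← Real.rpow_add hz]
    norm_num
  · rw [hu]; norm_num
  · rw [hu]; norm_num
  · rw [hu]
    nth_rewrite 1 [← Real.rpow_one z]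
    rw [← Real.rpow_add hz]
    norm_num

theorem num_h5 {C K p t z x τ N : ℝ} (hC : 1 ≤ C) (hK : 1 ≤ K) (ht : 1 ≤ t) (hz : 0 < z)
    (hzt : t ^ (-(1 / 8) : ℝ) ≤ z) (hp1 : K * t ^ (3 / 2 : ℝ) ≤ p)
    (hp2 : p ≤ 2 * (K * t ^ (3 / 2 : ℝ))) (hN : N = z * p ^ 2)
    (hx : x ≤ C * (z ^ (3 / 8 : ℝ) * t)) (hτ : τ ≤ 2 * x) (hτ0 : 0 ≤ τ)
    (h1 : 4 * C ≤ t ^ (7 / 64 : ℝ)) (h2 : 2 * K ≤ t ^ (1 / 4 : ℝ)) :
    t ^ (1 / 16 : ℝ) * (τ * (p + t ^ (7 / 4 : ℝ))) ≤ N := by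
  have ht0 : 0 < t := by linarith
  have hp0 : 0 ≤ p := le_trans (by positivity) hp1
  have a1 : p ≤ t ^ (7 / 4 : ℝ) := by
    calc p ≤ 2 * K * t ^ (3 / 2 : ℝ) := by linarith
      _ ≤ t ^ (1 / 4 : ℝ) * t ^ (3 / 2 : ℝ) := mul_le_mul_of_nonneg_right h2 (by positivity)
      _ = t ^ (7 / 4 : ℝ) := by rw [← Real.rpow_add ht0]; norm_num
  have a2 : t ^ 3 ≤ p ^ 2 := by
    have b1 : t ^ (3 / 2 : ℝ) ≤ p :=
      (le_mul_of_one_le_left (by positivity) hK).trans hp1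
    have b2 : (t ^ (3 / 2 : ℝ)) ^ 2 ≤ p ^ 2 := pow_le_pow_left₀ (by positivity) b1 2
    have b3 : (t ^ (3 / 2 : ℝ)) ^ 2 = t ^ 3 := by
      rw [← Real.rpow_natCast, ← Real.rpow_mul ht0.le, ← Real.rpow_natCast]; norm_num
    rwa [b3] at b2
  have a3 : τ ≤ 2 * C * (z ^ (3 / 8 : ℝ) * t) := by linarith
  have a4 : t ^ (-(5 / 64) : ℝ) ≤ z ^ (5 / 8 : ℝ) := by
    have b1 := Real.rpow_le_rpow (by positivity) hzt (show (0 : ℝ) ≤ 5 / 8 by norm_num)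
    rw [← Real.rpow_mul ht0.le] at b1
    convert b1 using 2
    norm_num
  have a5 : 4 * C ≤ z ^ (5 / 8 : ℝ) * t ^ (3 / 16 : ℝ) := by
    calc 4 * C ≤ t ^ (7 / 64 : ℝ) := h1
      _ = t ^ (-(5 / 64) : ℝ) * t ^ (3 / 16 : ℝ) := by rw [← Real.rpow_add ht0]; norm_num
      _ ≤ _ := mul_le_mul_of_nonneg_right a4 (by positivity)
  have e1 : t ^ (1 / 16 : ℝ) * t * t ^ (7 / 4 : ℝ) * t ^ (3 / 16 : ℝ) = t ^ 3 := by
    nth_rewrite 2 [← Real.rpow_one t]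
    rw [← Real.rpow_add ht0, ← Real.rpow_add ht0, ← Real.rpow_add ht0, ← Real.rpow_natCast]
    norm_num
  have e2 : z ^ (3 / 8 : ℝ) * z ^ (5 / 8 : ℝ) = z := by
    rw [← Real.rpow_add hz]; norm_num
  calc t ^ (1 / 16 : ℝ) * (τ * (p + t ^ (7 / 4 : ℝ)))
      ≤ t ^ (1 / 16 : ℝ) * ((2 * C * (z ^ (3 / 8 : ℝ) * t)) * (2 * t ^ (7 / 4 : ℝ))) := by
        refine mul_le_mul_of_nonneg_left ?_ (by positivity)
        refine mul_le_mul a3 (by linarith) (by positivity) (by positivity)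
    _ = (4 * C) * (z ^ (3 / 8 : ℝ) * (t ^ (1 / 16 : ℝ) * t * t ^ (7 / 4 : ℝ))) := by ring
    _ ≤ (z ^ (5 / 8 : ℝ) * t ^ (3 / 16 : ℝ)) *
        (z ^ (3 / 8 : ℝ) * (t ^ (1 / 16 : ℝ) * t * t ^ (7 / 4 : ℝ))) :=
        mul_le_mul_of_nonneg_right a5 (by positivity)
    _ = (z ^ (3 / 8 : ℝ) * z ^ (5 / 8 : ℝ)) *
        (t ^ (1 / 16 : ℝ) * t * t ^ (7 / 4 : ℝ) * t ^ (3 / 16 : ℝ)) := by ring
    _ = z * t ^ 3 := by rw [e1, e2]
    _ ≤ z * p ^ 2 := mul_le_mul_of_nonneg_left a2 hz.le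
    _ = N := hN.symm

theorem num_bd {Cr c' k u Y τ N M W x ε : ℝ} (hCr : 0 < Cr) (hN : 0 < N) (hτ : 0 < τ) (hY : 0 < Y)
    (hM : 0 ≤ M) (hW : 0 < W) (hx : N ^ 2 / W = x) (hxτ : x ≤ τ)
    (h : 4 * Cr * N ^ ε ≤ c' * k ^ 4 * u ^ 2)
    (g0 : c' * k ^ 4 * u ^ 2 * (Y * τ ^ 3) ≤ N) (g1 : N ≤ 2 * M * (Y * τ ^ 2)) :
    Cr * N ^ (2 + ε) ≤ M * (W / 2) := by
  have e1 : N ^ (2 + ε) = N ^ 2 * N ^ ε := by
    rw [Real.rpow_add hN]; norm_num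
  have e2 : N ^ 2 ≤ τ * W := by
    rw [div_eq_iff hW.ne'] at hx
    rw [hx]
    exact mul_le_mul_of_nonneg_right hxτ hW.le
  have e3 : 4 * Cr * N ^ ε * (Y * τ ^ 3) ≤ N :=
    (mul_le_mul_of_nonneg_right h (by positivity)).trans g0
  have e4 : (Cr * N ^ (2 + ε)) * (4 * (Y * τ ^ 3)) ≤ (M * (W / 2)) * (4 * (Y * τ ^ 3)) := by
    calc (Cr * N ^ (2 + ε)) * (4 * (Y * τ ^ 3)) = (4 * Cr * N ^ ε * (Y * τ ^ 3)) * N ^ 2 := by
          rw [e1]; ring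
      _ ≤ N * N ^ 2 := mul_le_mul_of_nonneg_right e3 (by positivity)
      _ ≤ (2 * M * (Y * τ ^ 2)) * (τ * W) := mul_le_mul g1 e2 (by positivity) (by positivity)
      _ = _ := by ring
  exact le_of_mul_le_mul_right e4 (by positivity)

theorem num_bd' {Cr c' K k u t z N p ε₁ : ℝ} (hCr : 0 < Cr) (hc : 0 < c') (hε : 0 < ε₁)
    (hK : 1 ≤ K) (hk : 1 ≤ k) (ht : 1 ≤ t) (hz : 0 < z) (hz1 : z ≤ 1) (hN0 : 0 < N)
    (hN : N = z * p ^ 2) (hp0 : 0 ≤ p) (hp2 : p ≤ 2 * (K * t ^ (3 / 2 : ℝ)))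
    (hzt : z < t ^ (-(ε₁ / 2))) (hu : u ^ 2 = z ^ (-(1 / 12) : ℝ))
    (h : 4 * Cr * (4 * K ^ 2) ^ (ε₁ / 144) / c' ≤ t ^ (ε₁ / 48)) :
    4 * Cr * N ^ (ε₁ / 144) ≤ c' * k ^ 4 * u ^ 2 := by
  have ht0 : 0 < t := by linarith
  have a1 : N ≤ 4 * K ^ 2 * t ^ 3 := by
    have b3 : (t ^ (3 / 2 : ℝ)) ^ 2 = t ^ 3 := by
      rw [← Real.rpow_natCast, ← Real.rpow_mul ht0.le, ← Real.rpow_natCast]; norm_num
    calc N = z * p ^ 2 := hN
      _ ≤ 1 * p ^ 2 := mul_le_mul_of_nonneg_right hz1 (by positivity)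
      _ ≤ (2 * (K * t ^ (3 / 2 : ℝ))) ^ 2 := by
          rw [one_mul]; exact pow_le_pow_left₀ hp0 hp2 2
      _ = 4 * K ^ 2 * (t ^ (3 / 2 : ℝ)) ^ 2 := by ring
      _ = _ := by rw [b3]
  have a2 : N ^ (ε₁ / 144) ≤ (4 * K ^ 2) ^ (ε₁ / 144) * t ^ (ε₁ / 48) := by
    calc N ^ (ε₁ / 144) ≤ (4 * K ^ 2 * t ^ 3) ^ (ε₁ / 144) :=
          Real.rpow_le_rpow hN0.le a1 (by positivity)
      _ = (4 * K ^ 2) ^ (ε₁ / 144) * (t ^ 3) ^ (ε₁ / 144) :=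
          Real.mul_rpow (by positivity) (by positivity)
      _ = _ := by
          congr 1
          rw [← Real.rpow_natCast, ← Real.rpow_mul ht0.le]
          congr 1; push_cast; ring
  have a3 : t ^ (ε₁ / 24) ≤ u ^ 2 := by
    rw [hu]
    have b1 := Real.rpow_le_rpow_of_nonpos hz hzt.le (show (-(1 / 12) : ℝ) ≤ 0 by norm_num)
    rw [← Real.rpow_mul ht0.le] at b1
    convert b1 using 2
    ring
  have a4 : 4 * Cr * (4 * K ^ 2) ^ (ε₁ / 144) ≤ c' * t ^ (ε₁ / 48) := by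
    rw [div_le_iff₀ hc] at h
    linarith
  have a5 : (1 : ℝ) ≤ k ^ 4 := one_le_pow₀ hk
  calc 4 * Cr * N ^ (ε₁ / 144) ≤ 4 * Cr * ((4 * K ^ 2) ^ (ε₁ / 144) * t ^ (ε₁ / 48)) :=
        mul_le_mul_of_nonneg_left a2 (by positivity)
    _ = (4 * Cr * (4 * K ^ 2) ^ (ε₁ / 144)) * t ^ (ε₁ / 48) := by ring
    _ ≤ (c' * t ^ (ε₁ / 48)) * t ^ (ε₁ / 48) :=
        mul_le_mul_of_nonneg_right a4 (by positivity)
    _ = c' * t ^ (ε₁ / 24) := by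
        rw [mul_assoc, ← Real.rpow_add ht0]
        congr 2; ring
    _ ≤ c' * u ^ 2 := mul_le_mul_of_nonneg_left a3 hc.le
    _ = c' * 1 * u ^ 2 := by ring
    _ ≤ c' * k ^ 4 * u ^ 2 :=
        mul_le_mul_of_nonneg_right (mul_le_mul_of_nonneg_left a5 hc.le) (by positivity)

/-- large `t` -/
theorem exists_t {δ : ℝ} (hδ : 0 < δ) (A : ℝ) : ∃ t₀ : ℕ, ∀ t : ℕ, t₀ ≤ t → A ≤ (t : ℝ) ^ δ := by
  have h := (tendsto_rpow_atTop hδ).comp tendsto_natCast_atTop_atTop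
  obtain ⟨t₀, h⟩ := (h.eventually_ge_atTop A).exists_forall_of_atTop
  exact ⟨t₀, fun t ht => h t ht⟩

end Vale.Agent.P054.T3.H900
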