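import Vale.Agent.P054.T3.H190.Flag
import Vale.Agent.P054.T3.H637.D3Det
import Vale.Agent.P054.T2.H686.Pairs
import Mathlib.LinearAlgebra.AffineSpace.FiniteDimensional

set_option autoImplicit false
set_option linter.all false

/-!
# P054 / T3, d = 3: the traces of the graphs of isometries of one orientation on a vertex set
-/

namespace Vale.Agent.P054.T3.H900

open Finset Module
open Vale.Agent.P054.T2.H686 (E)
open Vale.Agent.P054.T3.H109.Gen (onL lineC)
open Vale.Agent.P054.T3.H190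
open Vale.Agent.P054.T3.H637 (dt)

variable {n : ℕ}

/-- adjacency: equal nonzero distances -/
def adj (s r : E n × E n) : Prop := s.1 ≠ r.1 ∧ dist s.1 r.1 = dist s.2 r.2

theorem adj_snd_ne {s r : E n × E n} (h : adj s r) : s.2 ≠ r.2 := by
  intro h2
  have h1 := h.2
  rw [h2, dist_self] at h1
  exact h.1 (dist_eq_zero.1 h1)

theorem adjL : AdjL (adj (n := n)) where
  ne s r h h2 := h.1 (by rw [h2])
  symm s r h := ⟨h.1.symm, by rw [dist_comm, h.2, dist_comm]⟩
  line s r z h hz hne := by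
    obtain ⟨a, rfl⟩ := hz
    have ha : a ≠ 0 := by
      rintro rfl
      apply hne
      simp
    refine ⟨?_, ?_⟩
    · intro h1
      have h2 : s.1 = s.1 + a • (r.1 - s.1) := h1
      have h3 : a • (r.1 - s.1) = 0 := by
        have := congrArg (fun x => x - s.1) h2
        simpa using this.symm
      rcases smul_eq_zero.1 h3 with h4 | h4
      · exact ha h4
      · exact h.1 (sub_eq_zero.1 h4).symm
    · have h1 := h.2
      rw [dist_comm, dist_eq_norm, dist_comm, dist_eq_norm] at h1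
      show dist s.1 (s.1 + a • (r.1 - s.1)) = dist s.2 (s.2 + a • (r.2 - s.2))
      rw [dist_comm, dist_eq_norm, add_sub_cancel_left, dist_comm, dist_eq_norm,
        add_sub_cancel_left, norm_smul, norm_smul, h1]

/-- `A` is the trace on `S` of the graph of an isometry with determinant `ε` -/
def IsTr (S : Finset (E n × E n)) (ε : ℝ) (A : Finset (E n × E n)) : Prop :=
  ∃ (Φ : E n ≃ₗᵢ[ℝ] E n) (c : E n), dt Φ = ε ∧ ∀ x, x ∈ A ↔ x ∈ S ∧ x.1 = Φ x.2 + c

open scoped Classical in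
/-- the traces -/
noncomputable def tr (S : Finset (E n × E n)) (ε : ℝ) : Finset (Finset (E n × E n)) :=
  S.powerset.filter (IsTr S ε)

theorem mem_tr {S : Finset (E n × E n)} {ε : ℝ} {A : Finset (E n × E n)} :
    A ∈ tr S ε ↔ IsTr S ε A := by
  classical
  unfold tr
  rw [mem_filter, mem_powerset]
  constructor
  · exact fun h => h.2
  · rintro ⟨Φ, c, h1, h2⟩
    exact ⟨fun x hx => ((h2 x).1 hx).1, Φ, c, h1, h2⟩

open scoped Classical in
/-- the trace of the graph through `s` -/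
noncomputable def trAt (S : Finset (E n × E n)) (Φ : E n ≃ₗᵢ[ℝ] E n) (s : E n × E n) :
    Finset (E n × E n) := S.filter fun x => x.1 - s.1 = Φ (x.2 - s.2)

theorem mem_trAt {S : Finset (E n × E n)} {Φ : E n ≃ₗᵢ[ℝ] E n} {s x : E n × E n} :
    x ∈ trAt S Φ s ↔ x ∈ S ∧ x.1 - s.1 = Φ (x.2 - s.2) := by
  classical
  unfold trAt
  rw [mem_filter]

theorem trAt_mem {S : Finset (E n × E n)} {ε : ℝ} {Φ : E n ≃ₗᵢ[ℝ] E n} (hΦ : dt Φ = ε)
    (s : E n × E n) : trAt S Φ s ∈ tr S ε := by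
  refine mem_tr.2 ⟨Φ, s.1 - Φ s.2, hΦ, fun x => ?_⟩
  rw [mem_trAt]
  refine and_congr_right fun _ => ?_
  rw [map_sub]
  constructor
  · intro h
    rw [sub_eq_iff_eq_add] at h
    rw [h]; abel
  · intro h
    rw [h]; abel

theorem IsTr.subset {S : Finset (E n × E n)} {ε : ℝ} {A : Finset (E n × E n)}
    (h : IsTr S ε A) : A ⊆ S := by
  obtain ⟨Φ, c, -, h⟩ := h
  exact fun x hx => ((h x).1 hx).1

theorem IsTr.sub {S : Finset (E n × E n)} {ε : ℝ} {A : Finset (E n × E n)}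
    (h : IsTr S ε A) : ∃ Φ : E n ≃ₗᵢ[ℝ] E n, dt Φ = ε ∧ (∀ x ∈ A, ∀ y ∈ A,
      x.1 - y.1 = Φ (x.2 - y.2)) ∧ ∀ x ∈ A, ∀ y ∈ S, y.1 - x.1 = Φ (y.2 - x.2) → y ∈ A := by
  obtain ⟨Φ, c, h1, h⟩ := h
  refine ⟨Φ, h1, ?_, ?_⟩
  · intro x hx y hy
    rw [((h x).1 hx).2, ((h y).1 hy).2, map_sub]
    abel
  · intro x hx y hy h2
    refine (h y).2 ⟨hy, ?_⟩
    have h3 := ((h x).1 hx).2
    rw [sub_eq_iff_eq_add] at h2
    rw [h2, h3, map_sub]
    abel

/-- a trace is a clique -/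
theorem IsTr.adj {S : Finset (E n × E n)} {ε : ℝ} {A : Finset (E n × E n)}
    (h : IsTr S ε A) {x y : E n × E n} (hx : x ∈ A) (hy : y ∈ A) (hne : x ≠ y) : adj x y := by
  obtain ⟨Φ, -, h2, -⟩ := h.sub
  have h3 := h2 x hx y hy
  refine ⟨?_, ?_⟩
  · intro h4
    rw [h4, sub_self] at h3
    have h5 : x.2 - y.2 = 0 := by
      have h6 : Φ (x.2 - y.2) = 0 := h3.symm
      rwa [LinearIsometryEquiv.map_eq_zero_iff] at h6
    exact hne (Prod.ext h4 (sub_eq_zero.1 h5))
  · rw [dist_eq_norm, dist_eq_norm, h3, Φ.norm_map]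

/-- a trace contains with two points all points of `S` on their line -/
theorem IsTr.onL_mem {S : Finset (E n × E n)} {ε : ℝ} {A : Finset (E n × E n)}
    (h : IsTr S ε A) {x y z : E n × E n} (hx : x ∈ A) (hy : y ∈ A) (hz : z ∈ S)
    (hl : onL x y z) : z ∈ A := by
  obtain ⟨Φ, -, h2, h3⟩ := h.sub
  refine h3 x hx z hz ?_
  obtain ⟨a, rfl⟩ := hl
  have h4 := h2 y hy x hx
  show x.1 + a • (y.1 - x.1) - x.1 = Φ (x.2 + a • (y.2 - x.2) - x.2)
  rw [add_sub_cancel_left, add_sub_cancel_left, map_smul, h4]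

/-- the coordinates of a pair -/
noncomputable def cr : (E n × E n) →ₗ[ℝ] (Fin (n + 1) ⊕ Fin (n + 1) → ℝ) where
  toFun s := Sum.elim (fun i => s.1 i) (fun i => s.2 i)
  map_add' s r := by
    funext i
    rcases i with i | i <;> rfl
  map_smul' a s := by
    funext i
    rcases i with i | i <;> rfl

/-- a trace spans at most an `(n+1)`-flat -/
theorem IsTr.finrank_le {S : Finset (E n × E n)} {ε : ℝ} {A : Finset (E n × E n)}
    (h : IsTr S ε A) : finrank ℝ (vectorSpan ℝ (A : Set (E n × E n))) ≤ n + 1 := by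
  obtain ⟨Φ, -, h2, -⟩ := h.sub
  set G : E n →ₗ[ℝ] (E n × E n) := LinearMap.prod (Φ.toLinearEquiv : E n →ₗ[ℝ] E n) LinearMap.id
    with hG
  have h3 : vectorSpan ℝ (A : Set (E n × E n)) ≤ LinearMap.range G := by
    unfold vectorSpan
    rw [Submodule.span_le]
    rintro _ ⟨x, hx, y, hy, rfl⟩
    refine ⟨x.2 - y.2, ?_⟩
    show (Φ (x.2 - y.2), x.2 - y.2) = x - y
    rw [← h2 x hx y hy]
    rfl
  refine (Submodule.finrank_mono h3).trans ((LinearMap.finrank_range_le G).trans (le_of_eq ?_))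
  rw [finrank_euclideanSpace, Fintype.card_fin]

end Vale.Agent.P054.T3.H900
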